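import Vale.Agent.Q017D.K3

/-!
# Two-descent in the cubic field of discriminant `-300`
-/

set_option linter.all false

namespace Vale.Agent.Q017D

open NumberField Polynomial InfinitePlace Module Vale.Agent.Q017B WithZero

theorem prim3 (a b c : ℚ) : ∃ (t : ℚ) (x y z : ℤ), a = t * x ∧ b = t * y ∧ c = t * z ∧
    (t ≠ 0 → ∀ l : ℤ, l ∣ x → l ∣ y → l ∣ z → l ∣ 1) := by
  obtain ⟨n, hn⟩ : ∃ n : ℚ, n = a.den * b.den * c.den := ⟨_, rfl⟩
  have hn0 : n ≠ 0 := by rw [hn]; positivity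
  have eA : ((a.num * b.den * c.den : ℤ) : ℚ) = a * n := by
    rw [hn]; push_cast; rw [← Rat.mul_den_eq_num a]; ring
  have eB : ((b.num * a.den * c.den : ℤ) : ℚ) = b * n := by
    rw [hn]; push_cast; rw [← Rat.mul_den_eq_num b]; ring
  have eC : ((c.num * a.den * b.den : ℤ) : ℚ) = c * n := by
    rw [hn]; push_cast; rw [← Rat.mul_den_eq_num c]; ring
  generalize a.num * b.den * c.den = A at eA
  generalize b.num * a.den * c.den = B at eB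
  generalize c.num * a.den * b.den = C at eC
  obtain ⟨g, hg⟩ : ∃ g : ℤ, g = gcd A (gcd B C) := ⟨_, rfl⟩
  obtain ⟨x, hx⟩ : g ∣ A := hg ▸ gcd_dvd_left _ _
  obtain ⟨y, hy⟩ : g ∣ B := hg ▸ (gcd_dvd_right _ _).trans (gcd_dvd_left _ _)
  obtain ⟨z, hz⟩ : g ∣ C := hg ▸ (gcd_dvd_right _ _).trans (gcd_dvd_right _ _)
  refine ⟨g / n, x, y, z, ?_, ?_, ?_, fun h0 l h1 h2 h3 => ?_⟩
  · rw [hx] at eA; push_cast at eA; field_simp; linear_combination -eA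
  · rw [hy] at eB; push_cast at eB; field_simp; linear_combination -eB
  · rw [hz] at eC; push_cast at eC; field_simp; linear_combination -eC
  · have g0 : g ≠ 0 := by rintro rfl; simp at h0
    have : g * l ∣ g * 1 := by
      rw [mul_one]
      nth_rewrite 2 [hg]
      exact dvd_gcd (hx ▸ mul_dvd_mul_left g h1)
        (dvd_gcd (hy ▸ mul_dvd_mul_left g h2) (hz ▸ mul_dvd_mul_left g h3))
    exact (mul_dvd_mul_iff_left g0).1 this

/-- second coordinate of `δ β²` -/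
def qB (p q r a b c : ℤ) : ℤ := p * (2 * a * b + 6 * b * c + 6 * c ^ 2) +
  q * (a ^ 2 + 6 * b * c + 3 * c ^ 2) + 3 * (q * (2 * a * c + b ^ 2 + 2 * b * c + 4 * c ^ 2) +
  r * (2 * a * b + 6 * b * c + 6 * c ^ 2)) + 6 * r * (2 * a * c + b ^ 2 + 2 * b * c + 4 * c ^ 2)

/-- third coordinate of `δ β²` -/
def qC (p q r a b c : ℤ) : ℤ := p * (2 * a * c + b ^ 2 + 2 * b * c + 4 * c ^ 2) +
  q * (2 * a * b + 6 * b * c + 6 * c ^ 2) + r * (a ^ 2 + 6 * b * c + 3 * c ^ 2) +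
  (q * (2 * a * c + b ^ 2 + 2 * b * c + 4 * c ^ 2) + r * (2 * a * b + 6 * b * c + 6 * c ^ 2)) +
  4 * r * (2 * a * c + b ^ 2 + 2 * b * c + 4 * c ^ 2)

theorem coords {p q r k e : ℤ} {β : K3} {x : ℚ} (he : e ≠ 0)
    (h : el x (k * (2 * e)) (-(2 * e)) = el p q r * β ^ 2) : ∃ a b c s : ℤ,
    (∀ l : ℤ, l ∣ a → l ∣ b → l ∣ c → l ∣ 1) ∧ qB p q r a b c + k * qC p q r a b c = 0 ∧
      -2 * e * qC p q r a b c = s ^ 2 := by
  obtain ⟨a', b', c', rfl⟩ := exists_el β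
  obtain ⟨t, a, b, c, rfl, rfl, rfl, hp⟩ := prim3 a' b' c'
  rw [sq, el_mul, el_mul] at h
  obtain ⟨-, h1, h2⟩ := el_inj h
  have k1 : t ^ 2 * qB p q r a b c = k * (2 * e) := by
    unfold qB; push_cast; linear_combination -h1
  have k2 : t ^ 2 * qC p q r a b c = -(2 * e) := by
    unfold qC; push_cast; linear_combination -h2
  have e0 : (e : ℚ) ≠ 0 := by exact_mod_cast he
  have t0 : t ≠ 0 := by rintro rfl; apply e0; linear_combination k2 / 2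
  obtain ⟨s, hs⟩ : IsSquare (-2 * e * qC p q r a b c) := by
    rw [← Rat.isSquare_intCast_iff]
    exact ⟨t * qC p q r a b c, by push_cast; linear_combination -(qC p q r a b c : ℚ) * k2⟩
  refine ⟨a, b, c, s, hp t0, ?_, by rw [hs]; ring⟩
  have : ((qB p q r a b c + k * qC p q r a b c : ℤ) : ℚ) = 0 := by
    apply mul_left_cancel₀ (pow_ne_zero 2 t0)
    push_cast; linear_combination k1 + k * k2
  exact_mod_cast this

theorem ev4 {a : ℤ} (h : 2 * (a : ZMod 4) = 0) : 2 ∣ a := by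
  have := (ZMod.intCast_zmod_eq_zero_iff_dvd (2 * a) 4).1 (by exact_mod_cast h)
  omega

theorem od4 {a : ℤ} (h : ¬ 2 ∣ a) : 2 * (a : ZMod 4) ≠ 0 := fun k => h (ev4 k)

theorem no_eps {k e : ℤ} (hk : ¬ 2 ∣ k) (he : ¬ 2 ∣ e) {β : K3} {x : ℚ} :
    el x (k * (2 * e)) (-(2 * e)) ≠ el 2 3 2 * β ^ 2 := by
  intro h
  obtain ⟨a, b, c, s, hp, h1, h2⟩ := coords (p := 2) (q := 3) (r := 2) (k := k) (e := e)
    (x := x) (β := β) (by rintro rfl; exact he (dvd_zero _)) (by rw [h]; norm_num)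
  have key : ∀ a b c k e s : ZMod 4, 2 * k ≠ 0 → 2 * e ≠ 0 →
      3 * a ^ 2 + 2 * a * c + b ^ 2 + c ^ 2 + k * (2 * a ^ 2 + 2 * a * b + 2 * a * c + b ^ 2) = 0 →
      -2 * e * (2 * a ^ 2 + 2 * a * b + 2 * a * c + b ^ 2) = s ^ 2 →
      2 * a = 0 ∧ 2 * b = 0 ∧ 2 * c = 0 := by decide +kernel
  have h4 : (4 : ZMod 4) = 0 := rfl
  have c1 := congrArg (Int.cast : ℤ → ZMod 4) h1
  have c2 := congrArg (Int.cast : ℤ → ZMod 4) h2
  unfold qB qC at c1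
  unfold qC at c2
  push_cast at c1 c2
  obtain ⟨k1, k2, k3⟩ := key a b c k e s (od4 hk) (od4 he)
    (by linear_combination c1 - (4 * a * b + 10 * a * c + 5 * b ^ 2 + 27 * b * c + 35 * c ^ 2 +
      k * (2 * a * b + 6 * a * c + 3 * b ^ 2 + 17 * b * c + 22 * c ^ 2) : ZMod 4) * h4)
    (by linear_combination c2 + (2 * e * (2 * a * b + 6 * a * c + 3 * b ^ 2 + 17 * b * c +
      22 * c ^ 2) : ZMod 4) * h4)
  exact absurd (hp 2 (ev4 k1) (ev4 k2) (ev4 k3)) (by decide)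

theorem no_eta {k e : ℤ} (hk : ¬ 2 ∣ k) (he : ¬ 2 ∣ e) {β : K3} {x : ℚ} :
    el x (k * (2 * e)) (-(2 * e)) ≠ el (-3) (-1) 1 * β ^ 2 := by
  intro h
  obtain ⟨a, b, c, s, hp, h1, h2⟩ := coords (p := -3) (q := -1) (r := 1) (k := k) (e := e)
    (x := x) (β := β) (by rintro rfl; exact he (dvd_zero _)) (by rw [h]; norm_num)
  have key : ∀ a b c k e s : ZMod 4, 2 * k ≠ 0 → 2 * e ≠ 0 →
      -a ^ 2 + 6 * a * c + 3 * b ^ 2 + 9 * c ^ 2 + k * (a ^ 2 + 6 * b * c + 3 * c ^ 2) = 0 →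
      -2 * e * (a ^ 2 + 6 * b * c + 3 * c ^ 2) = s ^ 2 →
      2 * a = 0 ∧ 2 * b = 0 ∧ 2 * c = 0 := by decide +kernel
  have c1 := congrArg (Int.cast : ℤ → ZMod 4) h1
  have c2 := congrArg (Int.cast : ℤ → ZMod 4) h2
  unfold qB qC at c1
  unfold qC at c2
  push_cast at c1 c2
  obtain ⟨k1, k2, k3⟩ := key a b c k e s (od4 hk) (od4 he)
    (by linear_combination c1) (by linear_combination c2)
  exact absurd (hp 2 (ev4 k1) (ev4 k2) (ev4 k3)) (by decide)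

theorem sq3 {c : ℤ} (h : ¬ 3 ∣ c) : ∃ j, c ^ 2 = 3 * j + 1 := by
  obtain ⟨j, rfl | rfl | rfl⟩ : ∃ j, c = 3 * j ∨ c = 3 * j + 1 ∨ c = 3 * j + 2 :=
    ⟨c / 3, by omega⟩
  · exact absurd ⟨j, rfl⟩ h
  · exact ⟨3 * j ^ 2 + 2 * j, by ring⟩
  · exact ⟨3 * j ^ 2 + 4 * j + 1, by ring⟩

theorem dv3 {a b : ℤ} (h : a ^ 2 = 3 * b) : ∃ j, a = 3 * j :=
  Int.prime_three.dvd_of_dvd_pow ⟨b, h⟩

theorem nsq3 {j s : ℤ} : s ^ 2 ≠ 3 * j + 2 := by
  intro h
  by_cases k : 3 ∣ s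
  · obtain ⟨i, rfl⟩ := k
    have : (3 * i) ^ 2 = 3 * (3 * i ^ 2) := by ring
    omega
  · obtain ⟨i, hi⟩ := sq3 k
    omega

theorem no_ee3 {e : ℤ} (he : e = 1 ∨ e = 5 ∨ e = -3) {β : K3} {x : ℚ} :
    el x ((3 : ℤ) * (2 * e)) (-(2 * e)) ≠ el 3 4 2 * β ^ 2 := by
  intro h
  obtain ⟨a, b, c, s, hp, h1, h2⟩ := coords (p := 3) (q := 4) (r := 2) (k := 3) (e := e)
    (x := x) (β := β) (by omega) (by rw [h]; norm_num)
  unfold qB qC at h1
  unfold qC at h2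
  obtain ⟨a, rfl⟩ := dv3 (a := a) (b := -(3 * a ^ 2 + 18 * a * b + 46 * a * c + 23 * b ^ 2 +
    120 * b * c + 156 * c ^ 2)) (by linear_combination h1)
  obtain ⟨b, rfl⟩ := dv3 (a := b) (b := 10 * a ^ 2 + 18 * a * b + 46 * a * c + 8 * b ^ 2 +
    40 * b * c + 52 * c ^ 2) (by
      apply mul_left_cancel₀ (show (3 : ℤ) ≠ 0 by norm_num); linear_combination -h1)
  obtain ⟨j, hj⟩ := sq3 (c := c) fun k => absurd (hp 3 ⟨_, rfl⟩ ⟨_, rfl⟩ k) (by decide)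
  obtain ⟨i, hi⟩ : ∃ i, i = 2 * a ^ 2 + 12 * a * b + 10 * a * c + 15 * b ^ 2 + 26 * b * c +
    11 * c ^ 2 + j := ⟨_, rfl⟩
  have h3 : s ^ 2 = 3 * (-2 * e * (3 * i + 1)) := by
    rw [hi]; linear_combination -h2 - 6 * e * hj
  obtain ⟨s, rfl⟩ := dv3 h3
  have h4 : 3 * s ^ 2 = -2 * e * (3 * i + 1) := by linarith
  rcases he with rfl | rfl | rfl
  · omega
  · omega
  · exact nsq3 (j := 2 * i) (s := s) (by linarith)

theorem no_ee1 {β : K3} {x : ℚ} :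
    el x ((1 : ℤ) * (2 * (15 : ℤ))) (-(2 * (15 : ℤ))) ≠ el 3 4 2 * β ^ 2 := by
  intro h
  obtain ⟨a, b, c, s, hp, h1, h2⟩ := coords (p := 3) (q := 4) (r := 2) (k := 1) (e := 15)
    (x := x) (β := β) (by omega) (by rw [h]; norm_num)
  unfold qB qC at h1
  unfold qC at h2
  obtain ⟨s, rfl⟩ := dv3 (a := s) (b := -10 * (2 * a ^ 2 + 12 * a * b + 30 * a * c + 15 * b ^ 2 +
    78 * b * c + 102 * c ^ 2)) (by linear_combination -h2)
  obtain ⟨a, rfl⟩ := dv3 (a := a) (b := s ^ 2 + 7 * a ^ 2 + 10 * (4 * a * b + 10 * a * c +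
    5 * b ^ 2 + 26 * b * c + 34 * c ^ 2)) (by
      apply mul_left_cancel₀ (show (3 : ℤ) ≠ 0 by norm_num); linear_combination h2)
  obtain ⟨i, hi⟩ := dv3 (a := b + c) (b := -(6 * a ^ 2 + 10 * a * b + 26 * a * c + 4 * b ^ 2 +
    22 * b * c + 29 * c ^ 2)) (by
      apply mul_left_cancel₀ (show (3 : ℤ) ≠ 0 by norm_num); linear_combination h1)
  obtain rfl : b = 3 * i - c := by omega
  obtain ⟨j, hj⟩ := sq3 (c := c) fun k =>
    absurd (hp 3 ⟨_, rfl⟩ (dvd_sub ⟨_, rfl⟩ k) k) (by decide)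
  refine nsq3 (s := s) (j := -10 * (2 * a ^ 2 + 12 * a * i + 6 * a * c + 15 * i ^ 2 + 16 * i * c +
    4 * c ^ 2 + j) - 4) ?_
  apply mul_left_cancel₀ (show (9 : ℤ) ≠ 0 by norm_num)
  linear_combination -h2 - 90 * hj

theorem rank3 : Units.rank K3 = 1 := by
  rw [Units.rank, card_eq_nrRealPlaces_add_nrComplexPlaces, nrC.1, nrC.2]

theorem units_f : ∃ f : K3, ∀ u : (𝓞 K3)ˣ, ∃ (i j : ℕ) (v : K3), v ≠ 0 ∧ j < 2 ∧
    algebraMap (𝓞 K3) K3 u = (-1) ^ i * f ^ j * v ^ 2 := by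
  have : Unique (Fin (Units.rank K3)) := by rw [rank3]; infer_instance
  refine ⟨algebraMap (𝓞 K3) K3 (Units.fundSystem K3 default : (𝓞 K3)ˣ), fun u => ?_⟩
  obtain ⟨⟨t, e⟩, h, -⟩ := Units.exist_unique_eq_mul_prod K3 u
  simp only [Finset.univ_unique, Finset.prod_singleton] at h
  generalize Units.fundSystem K3 default = f at h ⊢
  generalize e default = b at h
  have f0 : algebraMap (𝓞 K3) K3 f ≠ 0 := Units.coe_ne_zero f
  have h1 : algebraMap (𝓞 K3) K3 u = algebraMap (𝓞 K3) K3 (t : (𝓞 K3)ˣ) *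
      algebraMap (𝓞 K3) K3 f ^ b := by
    rw [h]; exact (Units.coe_mul _ _).trans (congrArg _ (Units.coe_zpow f b))
  generalize algebraMap (𝓞 K3) K3 f = F at h1 f0 ⊢
  have h2 : F ^ b = F ^ (b % 2).toNat * (F ^ (b / 2)) ^ 2 := by
    rw [← zpow_natCast, ← zpow_natCast, ← zpow_mul, ← zpow_add₀ f0]
    congr 1; push_cast; omega
  rw [h1, h2]
  rcases Units.torsion_eq_one_or_neg_one_of_odd_finrank (by rw [rk3]; decide) t with k | k
  · exact ⟨0, (b % 2).toNat, F ^ (b / 2), zpow_ne_zero _ f0, by omega, by rw [k]; simp⟩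
  · exact ⟨1, (b % 2).toNat, F ^ (b / 2), zpow_ne_zero _ f0, by omega, by rw [k]; simp⟩

/-- the `{2, 3, 5}`-units times squares -/
def SU (x : K3) : Prop := ∃ (n0 n1 n2 n3 n4 n5 : ℕ) (s : K3), x = (-1) ^ n0 * el 2 3 2 ^ n1 *
  el 1 1 0 ^ n2 * el 0 1 0 ^ n3 * el 2 2 (-1) ^ n4 * el (-2) 1 0 ^ n5 * s ^ 2

theorem SU.mul {x y : K3} (hx : SU x) (hy : SU y) : SU (x * y) := by
  obtain ⟨a0, a1, a2, a3, a4, a5, s, rfl⟩ := hx
  obtain ⟨b0, b1, b2, b3, b4, b5, t, rfl⟩ := hy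
  exact ⟨a0 + b0, a1 + b1, a2 + b2, a3 + b3, a4 + b4, a5 + b5, s * t, by ring⟩

theorem SU.sq (s : K3) : SU (s ^ 2) := ⟨0, 0, 0, 0, 0, 0, s, by simp⟩

theorem SU.pow {x : K3} (hx : SU x) (n : ℕ) : SU (x ^ n) := by
  induction n with
  | zero => simpa using SU.sq 1
  | succ n ih => rw [pow_succ]; exact ih.mul hx

theorem SU.neg (i : ℕ) : SU ((-1) ^ i) := ⟨i, 0, 0, 0, 0, 0, 1, by simp⟩

theorem su_unit {x : 𝓞 K3} (hx : IsUnit x) : SU (algebraMap _ K3 x) := by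
  obtain ⟨f, hf⟩ := units_f
  have hf' : SU f := by
    obtain ⟨i, j, v, v0, hj, h⟩ := hf (Units.mkOfMulEqOne _ _ e1)
    rw [Units.val_mkOfMulEqOne, coe_io] at h
    push_cast at h
    interval_cases j
    · exfalso
      rcases neg_one_pow_eq_or K3 i with k | k <;> rw [k] at h
      · refine no_eps (k := 3) (e := 1) (x := 12) (β := el (-3) 0 1 / v) (by decide) (by decide) ?_
        rw [h, div_pow, sq (el (-3) 0 1), el_mul]
        field_simp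
        norm_num
      · have := congrArg (Algebra.norm ℚ) h
        rw [norm_el, show (-1 : K3) = el (-1) 0 0 by simp [el], map_mul, map_mul, map_pow, map_pow,
          norm_el] at this
        nlinarith [sq_nonneg (Algebra.norm ℚ v)]
    · have e : f = (-1) ^ i * el 2 3 2 * (v⁻¹) ^ 2 := by
        rw [h]
        rcases neg_one_pow_eq_or K3 i with k | k <;> rw [k] <;> field_simp
      exact ⟨i, 1, 0, 0, 0, 0, v⁻¹, by rw [e]; simp⟩
  obtain ⟨u, rfl⟩ := hx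
  obtain ⟨i, j, v, -, -, h⟩ := hf u
  rw [h]
  exact ((SU.neg i).mul (hf'.pow j)).mul (SU.sq v)

theorem su_ass {p q : 𝓞 K3} (hp : Prime p) (hq : Prime q) (h : p ∣ q)
    (hs : SU (algebraMap _ K3 q)) : SU (algebraMap _ K3 p) := by
  obtain ⟨u, rfl⟩ := (hp.associated_of_dvd hq h).symm
  rw [map_mul]
  exact hs.mul (su_unit u.isUnit)

theorem su_prime {p : 𝓞 K3} (hp : Prime p) (h : p ∣ 30) : SU (algebraMap _ K3 p) := by
  rw [show (30 : 𝓞 K3) = 2 * (3 * 5) by norm_num, e2, e3, e5] at h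
  have u1 : ¬ p ∣ io 2 3 2 := fun k => hp.not_dvd_one (e1 ▸ k.mul_right _)
  have u2 : ¬ p ∣ io (-1) 3 (-1) := fun k => hp.not_dvd_one (e1 ▸ k.mul_left _)
  rcases hp.dvd_or_dvd h with k | k
  · refine su_ass hp pr2 (hp.dvd_of_dvd_pow ((hp.dvd_or_dvd k).resolve_right u2)) ?_
    exact ⟨0, 0, 1, 0, 0, 0, 1, by simp [coe_io]⟩
  rcases hp.dvd_or_dvd k with k | k
  · rcases hp.dvd_or_dvd k with k | k
    · exact su_ass hp pr3 (hp.dvd_of_dvd_pow k) ⟨0, 0, 0, 1, 0, 0, 1, by simp [coe_io]⟩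
    · exact su_ass hp pr3' k ⟨0, 0, 0, 0, 1, 0, 1, by simp [coe_io]⟩
  · refine su_ass hp pr5 (hp.dvd_of_dvd_pow ((hp.dvd_or_dvd k).resolve_right u1)) ?_
    exact ⟨0, 0, 0, 0, 0, 1, 1, by simp [coe_io]⟩

theorem su_of (g : 𝓞 K3) : g ≠ 0 → (∀ p, Prime p → p ∣ g → p ∣ 30) → SU (algebraMap _ K3 g) := by
  refine UniqueFactorizationMonoid.induction_on_prime g (fun h => absurd rfl h)
    (fun x hx _ _ => su_unit hx) fun a p a0 hp ih _ h => ?_
  rw [map_mul]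
  exact (su_prime hp (h p hp (dvd_mul_right _ _))).mul
    (ih a0 fun q hq k => h q hq (k.mul_left _))

theorem red2 (x : K3) (n : ℕ) : x ^ n = x ^ (n % 2) * (x ^ (n / 2)) ^ 2 := by
  rw [← pow_mul, ← pow_add]; congr 1; omega

theorem sel {x : K3} (h : SU x) {n : ℚ} (hn0 : n ≠ 0) (hn : Algebra.norm ℚ x = n ^ 2) :
    ∃ β : K3,
    x = β ^ 2 ∨ x = el 2 3 2 * β ^ 2 ∨ x = el (-3) (-1) 1 * β ^ 2 ∨ x = el 3 4 2 * β ^ 2 := by
  obtain ⟨n0, n1, n2, n3, n4, n5, s, h⟩ := h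
  rw [red2 _ n0, red2 _ n1, red2 _ n2, red2 _ n3, red2 _ n4, red2 _ n5] at h
  obtain ⟨t, ht⟩ : ∃ t, x = (-1) ^ (n0 % 2) * el 2 3 2 ^ (n1 % 2) * el 1 1 0 ^ (n2 % 2) *
      el 0 1 0 ^ (n3 % 2) * el 2 2 (-1) ^ (n4 % 2) * el (-2) 1 0 ^ (n5 % 2) * t ^ 2 :=
    ⟨(-1) ^ (n0 / 2) * el 2 3 2 ^ (n1 / 2) * el 1 1 0 ^ (n2 / 2) * el 0 1 0 ^ (n3 / 2) *
      el 2 2 (-1) ^ (n4 / 2) * el (-2) 1 0 ^ (n5 / 2) * s, by rw [h]; ring⟩
  have b0 := Nat.mod_lt n0 two_pos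
  have b1 := Nat.mod_lt n1 two_pos
  have b2 := Nat.mod_lt n2 two_pos
  have b3 := Nat.mod_lt n3 two_pos
  have b4 := Nat.mod_lt n4 two_pos
  have b5 := Nat.mod_lt n5 two_pos
  generalize n0 % 2 = r0 at *
  generalize n1 % 2 = r1 at *
  generalize n2 % 2 = r2 at *
  generalize n3 % 2 = r3 at *
  generalize n4 % 2 = r4 at *
  generalize n5 % 2 = r5 at *
  clear h
  have hN := congrArg (Algebra.norm ℚ) ht
  rw [hn, show (-1 : K3) = el (-1) 0 0 by simp [el]] at hN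
  simp only [map_mul, map_pow, norm_el] at hN
  have t0 : Algebra.norm ℚ t ≠ 0 := fun k => hn0 (by simpa [k] using hN)
  have hs : IsSquare ((-1) ^ r0 * 2 ^ r2 * 3 ^ r3 * 3 ^ r4 * 5 ^ r5 : ℤ) := by
    rw [← Rat.isSquare_intCast_iff]
    refine ⟨n / Algebra.norm ℚ t, ?_⟩
    norm_num at hN
    push_cast; field_simp; linear_combination -hN
  have key : ∀ r0 < 2, ∀ r2 < 2, ∀ r3 < 2, ∀ r4 < 2, ∀ r5 < 2,
      IsSquare ((-1) ^ r0 * 2 ^ r2 * 3 ^ r3 * 3 ^ r4 * 5 ^ r5 : ℤ) →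
      r0 = 0 ∧ r2 = 0 ∧ r5 = 0 ∧ r3 = r4 := by
    intro r0 h0 r2 h2 r3 h3 r4 h4 r5 h5
    interval_cases r0 <;> interval_cases r2 <;> interval_cases r3 <;> interval_cases r4 <;>
      interval_cases r5 <;> decide +kernel
  obtain ⟨rfl, rfl, rfl, rfl⟩ := key r0 b0 r2 b2 r3 b3 r4 b4 r5 b5 hs
  have e1 : el 0 1 0 * el 2 2 (-1) = el (-3) (-1) 1 := by rw [el_mul]; norm_num
  have e2 : el 2 3 2 * el (-3) (-1) 1 = el 3 4 2 := by rw [el_mul]; norm_num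
  refine ⟨t, ?_⟩
  rw [ht, ← e2, ← e1]
  interval_cases r1 <;> interval_cases r3 <;> simp [mul_assoc]

theorem desc {θ γ : 𝓞 K3} {A B C d : ℤ} (hg : θ ^ 3 + A * θ ^ 2 + B * θ + C = 0)
    (hD : (3 * θ ^ 2 + 2 * A * θ + B) * γ = 30 ^ 3) (hd : d ∣ 30) {U V : ℚ} (hV : V ≠ 0)
    (h : d * V ^ 2 = U ^ 3 + A * U ^ 2 + B * U + C) : SU (d * (U - algebraMap _ K3 θ)) := by
  classical
  have d0 : d ≠ 0 := by rintro rfl; simp at hd
  have hmn : IsCoprime U.num (U.den : ℤ) := Rat.isCoprime_num_den U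
  have ea : (U.num : ℚ) = U * (U.den : ℤ) := (Rat.mul_den_eq_num U).symm
  have n0 : (U.den : ℤ) ≠ 0 := by exact_mod_cast U.den_nz
  generalize U.num = m at hmn ea
  generalize (U.den : ℤ) = n at hmn ea n0
  have hc0 : ((d * n * (m ^ 3 + A * m ^ 2 * n + B * m * n ^ 2 + C * n ^ 3) : ℤ) : ℚ) =
      (d * n ^ 2 * V) * (d * n ^ 2 * V) := by
    push_cast; rw [ea]; linear_combination -(d * n ^ 4 : ℚ) * h
  obtain ⟨c, hc⟩ := Rat.isSquare_intCast_iff.1 ⟨_, hc0⟩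
  have c0 : c ≠ 0 := by
    rintro rfl
    rw [hc] at hc0
    have : (d * n ^ 2 * V : ℚ) ≠ 0 := by positivity
    exact mul_ne_zero this this (by simpa using hc0.symm)
  obtain ⟨b, hb⟩ : ∃ b : 𝓞 K3, b = m ^ 2 + (θ + A) * m * n + (θ ^ 2 + A * θ + B) * n ^ 2 :=
    ⟨_, rfl⟩
  have hab : d * n * (m - n * θ) * b = (c : 𝓞 K3) ^ 2 := by
    have := congrArg (Int.cast : ℤ → 𝓞 K3) hc
    push_cast at this
    rw [hb]; linear_combination this - (d * n ^ 4 : 𝓞 K3) * hg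
  letI := IsBezout.toGCDDomain (𝓞 K3)
  obtain ⟨a', b', h1, h2, hu⟩ := extract_gcd (d * n * (m - n * θ) : 𝓞 K3) b
  generalize hgg : gcd (d * n * (m - n * θ) : 𝓞 K3) b = g at h1 h2
  clear hgg
  have c1 : (c : 𝓞 K3) ≠ 0 := by exact_mod_cast c0
  have g0 : g ≠ 0 := by
    rintro rfl
    rw [h2, zero_mul, mul_zero] at hab
    exact pow_ne_zero 2 c1 hab.symm
  obtain ⟨c', hc'⟩ : g ∣ c := (IsIntegrallyClosed.pow_dvd_pow_iff two_ne_zero).1
    ⟨a' * b', by rw [← hab, h1, h2]; ring⟩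
  obtain ⟨s, u, hs⟩ := exists_associated_pow_of_mul_eq_pow hu (k := 2) (c := c') (by
    apply mul_left_cancel₀ (pow_ne_zero 2 g0)
    rw [h1, h2, hc'] at hab
    linear_combination hab)
  have hg' : SU (algebraMap _ K3 g) := by
    refine su_of g g0 fun p hp k => ?_
    have k1 : p ∣ d * n * (m - n * θ) := h1 ▸ k.mul_right _
    have k2 : p ∣ b := h2 ▸ k.mul_right _
    have kn : ¬ p ∣ n := fun j => by
      have j2 : p ∣ (m : 𝓞 K3) ^ 2 := by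
        have := dvd_sub k2 (j.mul_right ((θ + A) * m + (θ ^ 2 + A * θ + B) * n))
        convert this using 1
        rw [hb]; ring
      exact hp.not_unit ((hmn.map (Int.castRingHom (𝓞 K3))).isUnit_of_dvd'
        (hp.dvd_of_dvd_pow j2) j)
    rcases hp.dvd_or_dvd k1 with j | j
    · exact ((hp.dvd_or_dvd j).resolve_right kn).trans
        (by exact_mod_cast map_dvd (Int.castRingHom (𝓞 K3)) hd)
    · have j2 : p ∣ (n : 𝓞 K3) ^ 2 * (3 * θ ^ 2 + 2 * A * θ + B) := by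
        have := dvd_sub k2 (j.mul_right (m + (2 * θ + A) * n))
        convert this using 1
        rw [hb]; ring
      exact hp.dvd_of_dvd_pow (n := 3) (hD ▸ ((hp.dvd_or_dvd j2).resolve_left
        fun i => kn (hp.dvd_of_dvd_pow i)).mul_right _)
  have e : (d * (U - algebraMap _ K3 θ) : K3) = algebraMap _ K3 g * algebraMap (𝓞 K3) K3 u *
      (algebraMap _ K3 s / n) ^ 2 := by
    have k := congrArg (algebraMap (𝓞 K3) K3) h1
    rw [← hs] at k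
    simp only [map_mul, map_sub, map_pow, map_intCast] at k
    have k2 : (m : K3) = U * n := by exact_mod_cast congrArg (Rat.cast : ℚ → K3) ea
    have k3 : (n : K3) ≠ 0 := by exact_mod_cast n0
    rw [k2] at k
    field_simp
    linear_combination k
  rw [e]
  exact (hg'.mul (su_unit u.isUnit)).mul (SU.sq _)

theorem halve {θ : K3} {t0 t1 t2 u0 u1 u2 p q r : ℚ} (h1 : θ = el t0 t1 t2)
    (h2 : θ ^ 2 = el u0 u1 u2) (hD : t1 * u2 - t2 * u1 ≠ 0)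
    (hg : θ ^ 3 + 4 * p * θ ^ 2 + 16 * q * θ + 16 * r = 0) {d X : ℚ} (d0 : d ≠ 0) {β : K3}
    (h : d * (4 * X - θ) = β ^ 2) : ∃ x s : ℚ, d * s ^ 2 = 4 * x ^ 3 + 4 * p * x ^ 2 + 4 * q * x + r ∧
      X * (4 * x ^ 3 + 4 * p * x ^ 2 + 4 * q * x + r) =
        x ^ 4 - 2 * q * x ^ 2 - 2 * r * x - (p * r - q ^ 2) := by
  have hc : ∀ a b c : ℚ, (a + b * θ + c * θ ^ 2 : K3) =
      el (a + b * t0 + c * u0) (b * t1 + c * u1) (b * t2 + c * u2) := by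
    intro a b c; rw [h2, h1]; unfold el; push_cast; ring
  have hind : ∀ a b c : ℚ, (a + b * θ + c * θ ^ 2 : K3) = 0 → a = 0 ∧ b = 0 ∧ c = 0 := by
    intro a b c k
    rw [hc] at k
    obtain ⟨k0, k1, k2⟩ := el_zero k
    have b0 : b = 0 := mul_right_cancel₀ hD (by linear_combination u2 * k1 - u1 * k2)
    have c0 : c = 0 := mul_right_cancel₀ hD (by linear_combination t1 * k2 - t2 * k1)
    exact ⟨by rw [b0, c0] at k0; linarith, b0, c0⟩
  obtain ⟨a, b, c, rfl⟩ : ∃ a b c : ℚ, β = a + b * θ + c * θ ^ 2 := by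
    obtain ⟨y0, y1, y2, rfl⟩ := exists_el β
    have hi := mul_inv_cancel₀ hD
    generalize (t1 * u2 - t2 * u1)⁻¹ = D at hi
    refine ⟨y0 - (y1 * u2 - y2 * u1) * D * t0 - (t1 * y2 - t2 * y1) * D * u0,
      (y1 * u2 - y2 * u1) * D, (t1 * y2 - t2 * y1) * D, ?_⟩
    rw [hc]; congr 1
    · ring
    · linear_combination -y1 * hi
    · linear_combination -y2 * hi
  have c0 : c ≠ 0 := by
    rintro rfl
    obtain ⟨-, k1, k2⟩ := hind (a ^ 2 - 4 * d * X) (2 * a * b + d) (b ^ 2)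
      (by push_cast at h ⊢; linear_combination -h)
    rw [pow_eq_zero_iff two_ne_zero] at k2
    exact d0 (by rw [k2] at k1; linarith)
  obtain ⟨ρ, rfl⟩ : ∃ ρ, b = c * (ρ + 4 * p) := ⟨b / c - 4 * p, by field_simp; ring⟩
  obtain ⟨l, hl⟩ : ∃ l, l = a - ρ * (c * (ρ + 4 * p)) - 16 * q * c := ⟨_, rfl⟩
  obtain ⟨m, hm⟩ : ∃ m, m = -ρ * a - 16 * r * c := ⟨_, rfl⟩
  have k : (a + (c * (ρ + 4 * p) : ℚ) * θ + c * θ ^ 2 : K3) * (θ - ρ) = l * θ + m := by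
    rw [hl, hm]; push_cast; linear_combination (c : K3) * hg
  generalize (a + (c * (ρ + 4 * p) : ℚ) * θ + c * θ ^ 2 : K3) = β at h k
  obtain ⟨e0, e1, e2⟩ := hind (m ^ 2 - d * (16 * r + 4 * X * ρ ^ 2))
    (2 * l * m - d * (16 * q - ρ ^ 2 - 8 * X * ρ)) (l ^ 2 - d * (4 * p + 4 * X + 2 * ρ)) (by
      push_cast
      linear_combination -(θ - ρ) ^ 2 * h - (β * (θ - ρ) + l * θ + m) * k - d * hg)
  refine ⟨ρ / 4, (l * ρ + m) / (4 * d), ?_, ?_⟩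
  · field_simp
    linear_combination e0 + ρ * e1 + ρ ^ 2 * e2
  · have : (d * (16 * q - ρ ^ 2 - 8 * X * ρ)) ^ 2 =
        4 * (d * (4 * p + 4 * X + 2 * ρ)) * (d * (16 * r + 4 * X * ρ ^ 2)) := by
      rw [← sub_eq_zero.1 e0, ← sub_eq_zero.1 e1, ← sub_eq_zero.1 e2]; ring
    apply mul_left_cancel₀ (pow_ne_zero 2 d0)
    linear_combination (-1 / 256 : ℚ) * this

theorem v2_2 : v2 (2 : ℚ) < 1 := by exact_mod_cast v2_even (n := 2) (by norm_num)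

theorem v2_lt {a y : ℚ} (ha : v2 a < 1) (hy : v2 y ≤ 1) : v2 (a * y) < 1 := by
  rw [map_mul]; exact mul_lt_one_of_nonneg_of_lt_one_left zero_le ha hy

theorem v2_le {a y : ℚ} (ha : v2 a ≤ 1) (hy : v2 y ≤ 1) : v2 (a * y) ≤ 1 := by
  rw [map_mul]; exact mul_le_one' ha hy

theorem v2_pw {y : ℚ} (hy : v2 y ≤ 1) (n : ℕ) : v2 (y ^ n) ≤ 1 := by
  rw [map_pow]; exact pow_le_one' hy n

theorem v2_f {p q r : ℤ} (hr : ¬ 2 ∣ r) {x : ℚ} (hx : v2 x ≤ 1) :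
    v2 (4 * x ^ 3 + 4 * p * x ^ 2 + 4 * q * x + r) = 1 := by
  rw [show 4 * x ^ 3 + 4 * p * x ^ 2 + 4 * q * x + r =
    r + 2 * ((2 : ℤ) * x ^ 3 + (2 * p : ℤ) * x ^ 2 + (2 * q : ℤ) * x) by push_cast; ring,
    Valuation.map_add_eq_of_lt_left, v2_odd hr]
  rw [v2_odd hr]
  exact v2_lt v2_2 (v2.map_add_le (v2.map_add_le (v2_le (v2_int _) (v2_pw hx _))
    (v2_le (v2_int _) (v2_pw hx _))) (v2_le (v2_int _) hx))

theorem no_pole {p q r : ℤ} {d : ℚ} (hr : ¬ 2 ∣ r)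
    (H : ∀ X W : ℚ, d * W ^ 2 = 4 * X ^ 3 + 4 * p * X ^ 2 + 4 * q * X + r → ∃ x s : ℚ,
      d * s ^ 2 = 4 * x ^ 3 + 4 * p * x ^ 2 + 4 * q * x + r ∧
      X * (4 * x ^ 3 + 4 * p * x ^ 2 + 4 * q * x + r) =
        x ^ 4 - 2 * q * x ^ 2 - 2 * r * x - (p * r - q ^ 2))
    {X W : ℚ} (h : d * W ^ 2 = 4 * X ^ 3 + 4 * p * X ^ 2 + 4 * q * X + r) : v2 X ≤ 1 := by
  induction hk : (log (v2 X)).natAbs using Nat.strong_induction_on generalizing X W with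
  | _ k ih =>
    by_contra hX
    rw [not_le] at hX
    obtain ⟨x, s, h1, h2⟩ := H X W h
    have h3 := congrArg v2 h2
    rw [map_mul, show x ^ 4 - 2 * q * x ^ 2 - 2 * r * x - (p * r - q ^ 2) =
      x ^ 4 + ((-2 * q : ℤ) * x ^ 2 + (-2 * r : ℤ) * x + (q ^ 2 - p * r : ℤ)) by push_cast; ring]
      at h3
    rcases le_or_gt (v2 x) 1 with hx | hx
    · rw [v2_f hr hx, mul_one] at h3
      exact hX.not_ge (h3 ▸ v2.map_add_le (v2_pw hx _) (v2.map_add_le (v2.map_add_le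
        (v2_le (v2_int _) (v2_pw hx _)) (v2_le (v2_int _) hx)) (v2_int _)))
    have x0 : 0 < v2 x := zero_lt_one.trans hx
    have a : ∀ (n : ℤ) (i j : ℕ), i < j → v2 (n * x ^ i) < v2 x ^ j := fun n i j hij => by
      rw [map_mul, map_pow]
      exact (mul_le_of_le_one_left' (v2_int n)).trans_lt (pow_lt_pow_right₀ hx hij)
    rw [Valuation.map_add_eq_of_lt_left (x := x ^ 4), map_pow] at h3
    · have h4 : v2 (4 * x ^ 3 + 4 * p * x ^ 2 + 4 * q * x + r) < v2 x ^ 3 := by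
        refine v2.map_add_lt (v2.map_add_lt (v2.map_add_lt ?_ ?_) ?_) ?_
        · rw [map_mul, map_pow]
          exact mul_lt_of_lt_one_left (pow_pos x0 3) (by exact_mod_cast v2_even (n := 4) (by decide))
        · exact_mod_cast a (4 * p) 2 3 (by decide)
        · simpa using a (4 * q) 1 3 (by decide)
        · simpa using a r 0 3 (by decide)
      have h5 : v2 x < v2 X := by
        have := mul_lt_mul_of_pos_left h4 (zero_lt_one.trans hX)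
        rw [h3, pow_succ'] at this
        exact lt_of_mul_lt_mul_right this (pow_pos x0 3).le
      have l1 : log (1 : ℤᵐ⁰) < log (v2 x) := (log_lt_log one_ne_zero x0.ne').2 hx
      have l2 : log (v2 x) < log (v2 X) := (log_lt_log x0.ne' (x0.trans h5).ne').2 h5
      rw [log_one] at l1
      exact hx.not_ge (ih _ (by omega) h1 rfl)
    · rw [map_pow]
      refine v2.map_add_lt (v2.map_add_lt (a _ 2 4 (by decide)) ?_) ?_
      · simpa using a (-2 * r) 1 4 (by decide)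
      · simpa only [pow_zero, mul_one] using a (q ^ 2 - p * r) 0 4 (by decide)

theorem chord {p q r : ℤ} (hr : ¬ 2 ∣ r)
    (N : ∀ X W : ℚ, W ^ 2 = 4 * X ^ 3 + 4 * p * X ^ 2 + 4 * q * X + r → v2 X ≤ 1) {X W Y Z : ℚ}
    (h1 : W ^ 2 = 4 * X ^ 3 + 4 * p * X ^ 2 + 4 * q * X + r)
    (h2 : Z ^ 2 = 4 * Y ^ 3 + 4 * p * Y ^ 2 + 4 * q * Y + r) (hy : v2 ((Y - X) / 2) ≤ 1) :
    Y = X := by
  by_contra h
  rw [← ne_eq, ← sub_ne_zero] at h
  have key : ∀ W : ℚ, W ^ 2 = 4 * X ^ 3 + 4 * p * X ^ 2 + 4 * q * X + r →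
      v2 ((Z - W) / (Y - X)) < 1 := by
    intro W h1
    obtain ⟨μ, hμ⟩ : ∃ μ, μ = (Z - W) / (Y - X) := ⟨_, rfl⟩
    have e : Z = W + μ * (Y - X) := by rw [hμ]; field_simp; ring
    rw [← hμ]
    have e2 : 2 * W * μ + μ ^ 2 * (Y - X) =
        4 * (Y ^ 2 + X * Y + X ^ 2) + 4 * p * (X + Y) + 4 * q := by
      apply mul_left_cancel₀ h
      rw [e] at h2
      linear_combination h2 - h1
    have h3 := N (μ ^ 2 / 4 - p - X - Y) (W + μ * (μ ^ 2 / 4 - p - X - Y - X))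
      (by linear_combination h1 + (μ ^ 2 / 4 - p - X - Y - X) * e2)
    have h4 : v2 (μ ^ 2) < 1 := by
      rw [show μ ^ 2 = 2 * ((2 : ℤ) * (μ ^ 2 / 4 - p - X - Y + p + X + Y)) by push_cast; ring]
      exact v2_lt v2_2 (v2_le (v2_int _) (v2.map_add_le (v2.map_add_le (v2.map_add_le h3
        (v2_int _)) (N _ _ h1)) (N _ _ h2)))
    rw [map_pow] at h4
    exact (pow_lt_one_iff two_ne_zero).1 h4
  have h3 := v2_lt (v2.map_add_lt (key W h1) (key (-W) (by rw [← h1]; ring))) hy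
  rw [show ((Z - W) / (Y - X) + (Z - -W) / (Y - X)) * ((Y - X) / 2) = Z by field_simp; ring] at h3
  have h4 := v2_f (p := p) (q := q) hr (N _ _ h2)
  rw [← h2, map_pow] at h4
  exact (pow_lt_one' h3 two_ne_zero).ne h4

theorem par {X : ℚ} (h : v2 X ≤ 1) : v2 (X / 2) ≤ 1 ∨ v2 ((X - 1) / 2) ≤ 1 := by
  have hd : ¬ (2 : ℤ) ∣ X.den := by exact_mod_cast Rat.padicValuation_le_one_iff.1 h
  have ea : X = X.num / (X.den : ℤ) := (Rat.num_div_den X).symm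
  have n0 : ((X.den : ℤ) : ℚ) ≠ 0 := by exact_mod_cast X.den_nz
  generalize X.num = m at ea
  generalize (X.den : ℤ) = n at ea hd n0
  have key : ∀ k : ℤ, v2 (k / n) ≤ 1 := fun k => by
    rw [map_div₀, v2_odd hd, div_one]; exact v2_int k
  obtain ⟨k, rfl | rfl⟩ : ∃ k, m = 2 * k ∨ m = 2 * k + n :=
    (by omega : m % 2 = 0 ∨ m % 2 = 1).elim (fun j => ⟨m / 2, by omega⟩)
      fun j => ⟨(m - n) / 2, by omega⟩
  · left; convert key k using 2; rw [ea]; push_cast; field_simp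
  · right; convert key k using 2; rw [ea]; push_cast; field_simp; ring

theorem loc8 {d a b c e : ℤ} {X W : ℚ} (h : d * W ^ 2 = a * X ^ 3 + b * X ^ 2 + c * X + e)
    (hX : v2 X ≤ 1) : ∃ m n s : ZMod 8, 4 * n ≠ 0 ∧
      d * n * (a * m ^ 3 + b * m ^ 2 * n + c * m * n ^ 2 + e * n ^ 3) = s ^ 2 := by
  have hd : ¬ (2 : ℤ) ∣ X.den := by exact_mod_cast Rat.padicValuation_le_one_iff.1 hX
  have ea : (X.num : ℚ) = X * (X.den : ℤ) := (Rat.mul_den_eq_num X).symm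
  generalize X.num = m at ea
  generalize (X.den : ℤ) = n at ea hd
  obtain ⟨s, hs⟩ : IsSquare (d * n * (a * m ^ 3 + b * m ^ 2 * n + c * m * n ^ 2 + e * n ^ 3)) := by
    rw [← Rat.isSquare_intCast_iff]
    exact ⟨d * n ^ 2 * W, by push_cast; rw [ea]; linear_combination -(d * n ^ 4 : ℚ) * h⟩
  refine ⟨m, n, s, fun k => ?_,
    by rw [sq (s : ZMod 8)]; exact_mod_cast congrArg (Int.cast : ℤ → ZMod 8) hs⟩
  have := (ZMod.intCast_zmod_eq_zero_iff_dvd (4 * n) 8).1 (by exact_mod_cast k)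
  omega

theorem half75 {e : ℤ} (he : e = 1 ∨ e = 5 ∨ e = -3) (X W : ℚ)
    (h : e * W ^ 2 = 4 * X ^ 3 + 4 * (7 : ℤ) * X ^ 2 + 4 * (18 : ℤ) * X + (81 : ℤ)) : ∃ x s : ℚ,
      e * s ^ 2 = 4 * x ^ 3 + 4 * (7 : ℤ) * x ^ 2 + 4 * (18 : ℤ) * x + (81 : ℤ) ∧
      X * (4 * x ^ 3 + 4 * (7 : ℤ) * x ^ 2 + 4 * (18 : ℤ) * x + (81 : ℤ)) =
        x ^ 4 - 2 * (18 : ℤ) * x ^ 2 - 2 * (81 : ℤ) * x - ((7 : ℤ) * (81 : ℤ) - (18 : ℤ) ^ 2) := by
  have e0 : (e : ℚ) ≠ 0 := by exact_mod_cast (by omega : e ≠ 0)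
  have hx : (e * ((4 * X : ℚ) - algebraMap (𝓞 K3) K3 (io (-12) (-6) 2)) : K3) =
      el (e * (4 * X + 12)) ((3 : ℤ) * (2 * e)) (-(2 * e)) := by
    rw [coe_io]; unfold el; push_cast; ring
  have hN : Algebra.norm ℚ (el (e * (4 * X + 12)) ((3 : ℤ) * (2 * e)) (-(2 * e))) =
      (e ^ 2 * (4 * W)) ^ 2 := by
    rw [norm_el]; push_cast at h ⊢; linear_combination -(16 * e ^ 3 : ℚ) * h
  have n0 : (e ^ 2 * (4 * W) : ℚ) ≠ 0 := fun k => by
    rw [k, zero_pow two_ne_zero, Algebra.norm_eq_zero_iff] at hN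
    exact e0 (by linarith [(el_zero hN).2.2])
  have hs := desc (θ := io (-12) (-6) 2) (γ := io 0 175 (-25)) (A := 28) (B := 288) (C := 1296)
    (d := e) (U := 4 * X) (V := 4 * W)
    (by simp only [io]; push_cast; linear_combination (8 * w ^ 3 - 64 * w ^ 2 + 144 * w - 48) * hw)
    (by simp only [io]; push_cast
        linear_combination (-300 * w ^ 3 + 3600 * w ^ 2 - 11800 * w + 9000) * hw)
    (by rcases he with rfl | rfl | rfl <;> decide) (right_ne_zero_of_mul n0)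
    (by push_cast at h ⊢; linear_combination 16 * h)
  rw [hx] at hs
  obtain ⟨β, k | k | k | k⟩ := sel hs n0 hN
  · refine halve (θ := el (-12) (-6) 2) (u0 := 84) (u1 := 96) (u2 := -20) (β := β) rfl
      (by rw [sq, el_mul]; norm_num) (by norm_num) ?_ e0 ?_
    · unfold el; push_cast; linear_combination (8 * φ ^ 3 - 64 * φ ^ 2 + 144 * φ - 48) * hφ
    · rw [← k]; unfold el; push_cast; ring
  · exact absurd k (no_eps (by decide) (by omega))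
  · exact absurd k (no_eta (by decide) (by omega))
  · exact absurd k (no_ee3 he)

theorem half225 (X W : ℚ)
    (h : 1 * W ^ 2 = 4 * X ^ 3 + 4 * (0 : ℤ) * X ^ 2 + 4 * (0 : ℤ) * X + (-16875 : ℤ)) : ∃ x s : ℚ,
      1 * s ^ 2 = 4 * x ^ 3 + 4 * (0 : ℤ) * x ^ 2 + 4 * (0 : ℤ) * x + (-16875 : ℤ) ∧
      X * (4 * x ^ 3 + 4 * (0 : ℤ) * x ^ 2 + 4 * (0 : ℤ) * x + (-16875 : ℤ)) = x ^ 4 -
        2 * (0 : ℤ) * x ^ 2 - 2 * (-16875 : ℤ) * x - ((0 : ℤ) * (-16875 : ℤ) - (0 : ℤ) ^ 2) := by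
  have hx : ((1 : ℤ) * ((4 * X : ℚ) - algebraMap (𝓞 K3) K3 (io (-60) (-30) 30)) : K3) =
      el (4 * X + 60) ((1 : ℤ) * (2 * (15 : ℤ))) (-(2 * (15 : ℤ))) := by
    rw [coe_io]; unfold el; push_cast; ring
  have hN : Algebra.norm ℚ (el (4 * X + 60) ((1 : ℤ) * (2 * (15 : ℤ))) (-(2 * (15 : ℤ)))) =
      (4 * W) ^ 2 := by
    rw [norm_el]; push_cast at h ⊢; linear_combination -(16 : ℚ) * h
  have n0 : (4 * W : ℚ) ≠ 0 := fun k => by
    rw [k, zero_pow two_ne_zero, Algebra.norm_eq_zero_iff] at hN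
    have := (el_zero hN).2.2
    norm_num at this
  have hs := desc (θ := io (-60) (-30) 30) (γ := io (-2) (-1) 1) (A := 0) (B := 0) (C := -270000)
    (d := 1) (U := 4 * X) (V := 4 * W)
    (by simp only [io]; push_cast
        linear_combination (27000 * w ^ 3 - 54000 * w ^ 2 - 54000 * w + 162000) * hw)
    (by simp only [io]; push_cast
        linear_combination (2700 * w ^ 3 - 5400 * w ^ 2 - 5400 * w + 16200) * hw)
    (by decide) n0 (by push_cast at h ⊢; linear_combination 16 * h)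
  rw [hx] at hs
  obtain ⟨β, k | k | k | k⟩ := sel hs n0 hN
  · refine halve (θ := el (-60) (-30) 30) (u0 := 900) (u1 := 3600) (u2 := -900) (β := β) rfl
      (by rw [sq, el_mul]; norm_num) (by norm_num) ?_ one_ne_zero ?_
    · unfold el; push_cast
      linear_combination (27000 * φ ^ 3 - 54000 * φ ^ 2 - 54000 * φ + 162000) * hφ
    · rw [← k]; unfold el; push_cast; ring
  · exact absurd k (no_eps (by decide) (by decide))
  · exact absurd k (no_eta (by decide) (by decide))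
  · exact absurd k no_ee1

/-- **the affine rational points of the curve `75c1`** -/
theorem r75 {X W : ℚ} (h : W ^ 2 = 4 * X ^ 3 + 28 * X ^ 2 + 72 * X + 81) : X = 0 ∨ X = -3 := by
  have N : ∀ X W : ℚ, W ^ 2 = 4 * X ^ 3 + 4 * (7 : ℤ) * X ^ 2 + 4 * (18 : ℤ) * X + (81 : ℤ) →
      v2 X ≤ 1 := fun X W h => no_pole (by decide) (half75 (e := 1) (by simp)) (W := W)
        (by rw [← h]; simp)
  have h1 : W ^ 2 = 4 * X ^ 3 + 4 * (7 : ℤ) * X ^ 2 + 4 * (18 : ℤ) * X + (81 : ℤ) := by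
    rw [h]; push_cast; ring
  rcases par (N X W h1) with k | k
  · exact Or.inl (chord (by decide) N (W := 9) (by norm_num) h1 (by simpa using k))
  · refine Or.inr (chord (by decide) N (W := 3) (by norm_num) h1 ?_)
    rw [show (X - -3) / 2 = (X - 1) / 2 + (2 : ℤ) by push_cast; ring]
    exact v2.map_add_le k (v2_int _)

theorem r75_aux {e : ℤ} (he : e = 5 ∨ e = -3) {X W : ℚ} :
    e * W ^ 2 ≠ 4 * X ^ 3 + 28 * X ^ 2 + 72 * X + 81 := by
  intro h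
  obtain ⟨m, n, s, h1, h2⟩ := loc8 (d := e) (a := 4) (b := 28) (c := 72) (e := 81) (W := W)
    (by exact_mod_cast h) (no_pole (by decide) (half75 (Or.inr he)) (X := X) (W := W)
      (by rw [h]; push_cast; ring))
  have key : ∀ m n s : ZMod 8, 4 * n ≠ 0 →
      5 * n * (4 * m ^ 3 + 28 * m ^ 2 * n + 72 * m * n ^ 2 + 81 * n ^ 3) ≠ s ^ 2 := by
    decide +kernel
  have e5 : (e : ZMod 8) = 5 := by rcases he with rfl | rfl <;> rfl
  exact key m n s h1 (by rw [← e5]; exact_mod_cast h2)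

/-- **the twist by `5` has no affine rational point** -/
theorem r75_5 {X W : ℚ} : 5 * W ^ 2 ≠ 4 * X ^ 3 + 28 * X ^ 2 + 72 * X + 81 := by
  exact_mod_cast r75_aux (e := 5) (Or.inl rfl) (X := X) (W := W)

/-- **the twist by `-3` has no affine rational point** -/
theorem r75_m3 {X W : ℚ} : -3 * W ^ 2 ≠ 4 * X ^ 3 + 28 * X ^ 2 + 72 * X + 81 := by
  exact_mod_cast r75_aux (e := -3) (Or.inr rfl) (X := X) (W := W)

/-- **the curve `Y² = X³ - 270000` has no affine rational point** -/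
theorem r225 {X Y : ℚ} : Y ^ 2 ≠ X ^ 3 - 270000 := by
  intro h
  have N : ∀ X W : ℚ, W ^ 2 = 4 * X ^ 3 + 4 * (0 : ℤ) * X ^ 2 + 4 * (0 : ℤ) * X + (-16875 : ℤ) →
      v2 X ≤ 1 := fun X W h => no_pole (by decide) half225 (W := W) (by rw [← h]; simp)
  have O : ∀ X W : ℚ, W ^ 2 = 4 * X ^ 3 + 4 * (0 : ℤ) * X ^ 2 + 4 * (0 : ℤ) * X + (-16875 : ℤ) →
      v2 ((X - 1) / 2) ≤ 1 := fun X W h => (par (N X W h)).resolve_left fun k => by
    obtain ⟨m, n, s, h1, h2⟩ := loc8 (d := 1) (a := 32) (b := 0) (c := 0) (e := -16875) (W := W)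
      (by rw [h]; push_cast; ring) k
    have key : ∀ m n s : ZMod 8, 4 * n ≠ 0 → n * (32 * m ^ 3 - 16875 * n ^ 3) ≠ s ^ 2 := by
      decide +kernel
    exact key m n s h1 (by rw [← h2]; push_cast; ring)
  have h1 : (Y / 4) ^ 2 = 4 * (X / 4) ^ 3 + 4 * (0 : ℤ) * (X / 4) ^ 2 + 4 * (0 : ℤ) * (X / 4) +
      (-16875 : ℤ) := by push_cast; linear_combination h / 16
  generalize X / 4 = U at h1
  obtain ⟨x, s, h2, h3⟩ := half225 U (Y / 4) (by rw [one_mul, h1])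
  rw [one_mul] at h2
  obtain rfl : x = U := chord (by decide) N h1 h2 (by
    rw [show (x - U) / 2 = (x - 1) / 2 - (U - 1) / 2 by ring]
    exact v2.map_sub_le (O _ _ h2) (O _ _ h1))
  have x0 : x ≠ 0 := by
    rintro rfl
    norm_num at h2
    nlinarith [sq_nonneg s]
  have h4 : x ^ 3 = 16875 := by
    apply mul_left_cancel₀ x0
    push_cast at h3
    linear_combination h3 / 3
  have e : x.num ^ 3 = 16875 * (x.den : ℤ) ^ 3 := by
    have : ((x.num ^ 3 : ℤ) : ℚ) = (16875 * (x.den : ℤ) ^ 3 : ℤ) := by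
      push_cast; rw [← Rat.mul_den_eq_num x, mul_pow, h4]
    exact_mod_cast this
  have k : ∀ a b : ZMod 7, a ^ 3 = 16875 * b ^ 3 → a = 0 ∧ b = 0 := by decide +kernel
  obtain ⟨k1, k2⟩ := k x.num x.den (by exact_mod_cast congrArg (Int.cast : ℤ → ZMod 7) e)
  have := Nat.dvd_gcd (Int.natCast_dvd.1 ((ZMod.intCast_zmod_eq_zero_iff_dvd _ 7).1 k1))
    ((ZMod.natCast_eq_zero_iff _ 7).1 k2)
  rw [x.reduced] at this
  omega

end Vale.Agent.Q017D
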