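import Vale.Agent.Q017D.D
import Vale.Agent.Q017A.Rel

/-!
# Points of `X₀(30)` over imaginary quadratic fields are isogenous to their conjugates
-/

set_option linter.all false

namespace Vale.Agent.Q017D

open NumberField Vale.Agent.Q017B Vale.Agent.Q017A

section
variable {K : Type*} [Field K] [CharZero K]

/-- the `j`-map of `X₀(15)` -/
def J (n z : K) : K := R3 (729 / (z ^ 2 * n ^ 3))

/-- the map from `X₀(15)` to `X₀(5)` -/
def S5 (n z : K) : K :=
  (9 - 36 * z - 9 * z ^ 2 - 9 * n * z - 9 * n * z ^ 2 - n * z ^ 3) / (n * z ^ 2)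

theorem map_J (t : K ≃+* K) (n z : K) : t (J n z) = J (t n) (t z) := by
  simp [J, R3, map_ofNat]

theorem curve {n z : K} (hn : n ≠ 0) (hz : z ≠ 0) (h : n + 5 + 9 / n = 1 / z - z) :
    z * (n ^ 2 + 5 * n + 9) = n * (1 - z ^ 2) := by
  field_simp at h; linear_combination h

theorem S5_mul {n z : K} (hn : n ≠ 0) (hz : z ≠ 0) (h : n + 5 + 9 / n = 1 / z - z) :
    S5 n z * S5 n (-1 / z) = 125 := by
  have hC := curve hn hz h
  unfold S5
  field_simp
  linear_combination (-9 * z ^ 4 - 72 * z ^ 3 - 126 * z ^ 2 + 72 * z - 9) * hC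

theorem S5_ne {n z : K} (hn : n ≠ 0) (hz : z ≠ 0) (h : n + 5 + 9 / n = 1 / z - z) :
    S5 n z ≠ 0 := fun j => by
  have := S5_mul hn hz h
  rw [j, zero_mul] at this
  norm_num at this

theorem J_R5 {n z : K} (hn : n ≠ 0) (hz : z ≠ 0) (h : n + 5 + 9 / n = 1 / z - z) :
    J n z = R5 (S5 n z) := by
  have hC := curve hn hz h
  have hS := S5_ne hn hz h
  unfold S5 at *
  obtain ⟨s, hs⟩ : ∃ s, s = 9 - 36 * z - 9 * z ^ 2 - 9 * n * z - 9 * n * z ^ 2 - n * z ^ 3 :=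
    ⟨_, rfl⟩
  rw [← hs] at hS ⊢
  have hs0 : s ≠ 0 := fun j => hS (by rw [j, zero_div])
  have key : (z ^ 2 * n ^ 3 + 27) * (z ^ 2 * n ^ 3 + 243) ^ 3 * s * z ^ 4 =
      (s ^ 2 + 10 * s * (n * z ^ 2) + 5 * (n * z ^ 2) ^ 2) ^ 3 * n ^ 4 := by
    rw [hs]
    linear_combination (
      -n^11*z^14 - 9*n^11*z^13 - 9*n^11*z^12 + n^10*z^15 + 14*n^10*z^14 + 44*n^10*z^13 -
      n^9*z^16 - 19*n^9*z^15 - 104*n^9*z^14 - 125*n^9*z^13 + 125*n^9*z^12 - 45*n^8*z^15 -
      900*n^8*z^14 - 6975*n^8*z^13 - 29970*n^8*z^12 - 95715*n^8*z^11 - 262980*n^8*z^10 -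
      564975*n^8*z^9 - 1020600*n^8*z^8 - 1535274*n^8*z^7 - 1417176*n^8*z^6 - 531441*n^8*z^5 -
      810*n^7*z^14 - 17010*n^7*z^13 - 149445*n^7*z^12 - 754515*n^7*z^11 - 2624400*n^7*z^10 -
      6982605*n^7*z^9 - 13966911*n^7*z^8 - 21145374*n^7*z^7 - 18954729*n^7*z^6 - 4428675*n^7*z^5
      + 2657205*n^7*z^4 - 7290*n^6*z^13 - 160380*n^6*z^12 - 1501740*n^6*z^11 - 7967970*n^6*z^10
      - 27484029*n^6*z^9 - 65700396*n^6*z^8 - 104333751*n^6*z^7 - 91759230*n^6*z^6 -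
      3542940*n^6*z^5 + 31886460*n^6*z^4 - 5314410*n^6*z^3 - 32805*n^5*z^12 - 754515*n^5*z^11 -
      7289271*n^5*z^10 - 38408094*n^5*z^9 - 119469249*n^5*z^8 - 216545805*n^5*z^7 -
      184232880*n^5*z^6 + 50683725*n^5*z^5 + 134926965*n^5*z^4 - 54915570*n^5*z^3 +
      5314410*n^5*z^2 - 59049*n^4*z^11 - 1417176*n^4*z^10 - 13817466*n^4*z^9 - 68496840*n^4*z^8
      - 170946855*n^4*z^7 - 131088780*n^4*z^6 + 116031285*n^4*z^5 + 196633170*n^4*z^4 -
      170946855*n^4*z^3 + 38972340*n^4*z^2 - 2657205*n^4*z - 19131876*n^3*z^7 - 76527504*n^3*z^6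
      + 19131876*n^3*z^5 - 66430125*n^3*z^4 - 66430125*n^3*z^3 + 55269864*n^3*z^2 -
      10097379*n^3*z + 531441*n^3 + 210450636*n^2*z^3 - 66961566*n^2*z^2 + 4782969*n^2*z +
      387420489*n*z^4 - 387420489*n*z^3 + 43046721*n*z^2 - 387420489*z^5 - 1549681956*z^4 +
      387420489*z^3) * hC
  have e1 : J n z = (z ^ 2 * n ^ 3 + 27) * (z ^ 2 * n ^ 3 + 243) ^ 3 / (z ^ 2 * n ^ 3) ^ 3 := by
    unfold J R3; field_simp; ring
  have e2 : R5 (s / (n * z ^ 2)) =
      (s ^ 2 + 10 * s * (n * z ^ 2) + 5 * (n * z ^ 2) ^ 2) ^ 3 / (s * (n * z ^ 2) ^ 5) := by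
    unfold R5; field_simp
  rw [e1, e2, div_eq_div_iff (by positivity) (by positivity)]
  linear_combination n ^ 5 * z ^ 6 * key

theorem curve_w5 {n z : K} (hz : z ≠ 0) (h : n + 5 + 9 / n = 1 / z - z) :
    n + 5 + 9 / n = 1 / (-1 / z) - -1 / z := by
  rw [h]; field_simp; ring

theorem curve_w15 {n z : K} (hn : n ≠ 0) (h : n + 5 + 9 / n = 1 / z - z) :
    9 / n + 5 + 9 / (9 / n) = 1 / z - z := by
  rw [← h]; field_simp; ring

theorem rel_w5 {n z : K} (hn : n ≠ 0) (hz : z ≠ 0) (h : n + 5 + 9 / n = 1 / z - z) :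
    Rel (J n z) (J n (-1 / z)) := by
  have h1 := S5_ne hn hz h
  rw [J_R5 hn hz h, J_R5 hn (div_ne_zero (by norm_num) hz) (curve_w5 hz h),
    show S5 n (-1 / z) = 125 / S5 n z by
      rw [eq_div_iff h1, mul_comm]; exact S5_mul hn hz h]
  exact Rel.s5 _ h1

theorem rel_w3 {n z : K} (hn : n ≠ 0) (hz : z ≠ 0) : Rel (J n z) (J (9 / n) (-1 / z)) := by
  have := Rel.s3 (729 / (z ^ 2 * n ^ 3) : K)
    (div_ne_zero (by norm_num) (mul_ne_zero (pow_ne_zero 2 hz) (pow_ne_zero 3 hn)))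
  rwa [show (729 : K) / (729 / (z ^ 2 * n ^ 3)) = 729 / ((-1 / z) ^ 2 * (9 / n) ^ 3) by
    field_simp; norm_num] at this

theorem rel_w15 {n z : K} (hn : n ≠ 0) (hz : z ≠ 0) (h : n + 5 + 9 / n = 1 / z - z) :
    Rel (J n z) (J (9 / n) z) := by
  have := (rel_w5 hn hz h).trans (rel_w3 hn (div_ne_zero (by norm_num) hz))
  rwa [show (-1 : K) / (-1 / z) = z by field_simp] at this

/-- `z` rational -/
theorem qc_rat {n z : K} (hn : n ≠ 0) (hz : z ≠ 0) (h : n + 5 + 9 / n = 1 / z - z)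
    (hq : ∃ q : ℚ, z = q) : QC (J n z) := by
  obtain ⟨q, rfl⟩ := hq
  intro t
  rw [map_J, map_ratCast]
  rcases conj_inv t hn (q := 1 / q - q - 5) (c := 9) (by push_cast; linear_combination h) with k | k
  · rw [k]; exact Rel.refl _
  · rw [k]; push_cast; exact rel_w15 hn hz h

/-- the exceptional class over the field of `√-7` -/
theorem qc_base {z : K} (h : 2 * z ^ 2 - 5 * z + 4 = 0) : QC (R3 (-27 * z)) := by
  have hz : z ≠ 0 := by rintro rfl; norm_num at h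
  have hVV : (457 / 2 - 93 * z) * ((93 * z - 4) / 4) = 4096 := by
    linear_combination (-8649 / 8) * h
  have hV : 457 / 2 - 93 * z ≠ 0 := left_ne_zero_of_mul (by rw [hVV]; norm_num)
  have hV' : (93 * z - 4) / 4 ≠ 0 := right_ne_zero_of_mul (by rw [hVV]; norm_num)
  have e1 : R3 (-27 * z) = R2 (457 / 2 - 93 * z) := by
    unfold R3 R2
    rw [div_eq_div_iff (mul_ne_zero (by norm_num) hz) hV]
    linear_combination (-(49424013 / 2) * z ^ 3 + (42055281 / 2) * z ^ 2 + (195057801 / 2) * z +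
      (333153 / 8)) * h
  have e2 : R3 (-27 / 2 * z) = R2 ((93 * z - 4) / 4) := by
    unfold R3 R2
    rw [div_eq_div_iff (mul_ne_zero (by norm_num) hz) hV']
    linear_combination ((49424013 / 128) * z ^ 3 + (61965 / 16) * z ^ 2 + (143613 / 8) * z -
      (729 / 4)) * h
  intro t
  have ht : t (R3 (-27 * z)) = R3 (-27 * t z) := by simp [R3, map_ofNat]
  rw [ht]
  rcases conj_root t (x := z) (T := 5 / 2) (N := 2) (by push_cast; linear_combination h / 2) with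
    k | k
  · rw [k]; exact Rel.refl _
  · have a1 := Rel.s2 _ hV
    rw [show (4096 : K) / (457 / 2 - 93 * z) = (93 * z - 4) / 4 by
      rw [div_eq_iff hV, mul_comm]; exact hVV.symm, ← e1, ← e2] at a1
    have a2 := Rel.s3 (-27 / 2 * z) (mul_ne_zero (by norm_num) hz)
    rw [show (729 : K) / (-27 / 2 * z) = -27 * t z by
      rw [k, div_eq_iff (mul_ne_zero (by norm_num) hz)]
      push_cast; linear_combination (729 / 4) * h] at a2
    exact a1.trans a2

theorem qc_exc1 {n z : K} (hn : n ≠ 0) (h : n + 5 + 9 / n = 1 / z - z)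
    (h' : 2 * z ^ 2 - 5 * z + 4 = 0) : QC (J n z) := by
  have hz : z ≠ 0 := by rintro rfl; norm_num at h'
  have hb : ∀ m : K, m * z = -3 → QC (J m z) := fun m hm => by
    have : m = -3 / z := by rw [eq_div_iff hz]; exact hm
    unfold J
    rw [this, show (729 : K) / (z ^ 2 * (-3 / z) ^ 3) = -27 * z by field_simp; norm_num]
    exact qc_base h'
  have hC := curve hn hz h
  have : (n * z + 3) * (n + 3 * z) = 0 := by linear_combination hC + n * h'
  rcases mul_eq_zero.1 this with k | k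
  · exact hb n (by linear_combination k)
  · refine QC.of_rel (rel_w15 hn hz h).symm (hb _ ?_)
    field_simp
    linear_combination 3 * k

theorem qc_exc2 {n z : K} (hn : n ≠ 0) (h : n + 5 + 9 / n = 1 / z - z)
    (h' : 4 * z ^ 2 + 5 * z + 2 = 0) : QC (J n z) := by
  have hz : z ≠ 0 := by rintro rfl; norm_num at h'
  refine QC.of_rel (rel_w5 hn hz h).symm (qc_exc1 hn (curve_w5 hz h) ?_)
  field_simp
  linear_combination h'

/-- a common point of `X₀(2)` and `X₀(3)` lifts to `X₀(6)` -/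
theorem x06 {T V : K} (hT : T ≠ 0) (hV : V ≠ 0) (h : R3 T = R2 V) (h3 : T + 3 ≠ 0)
    (h27 : T ^ 2 + 18 * T - 27 ≠ 0) : ∃ k : K, k * (k + 9) ^ 2 = T * (k + 8) := by
  unfold R3 R2 at h
  rw [div_eq_div_iff hT hV] at h
  obtain ⟨N, hN⟩ : ∃ N, N = 8 * T * (T + 3) * (T + 19) - (T ^ 2 + 30 * T + 81) * V := ⟨_, rfl⟩
  obtain ⟨D, hD⟩ : ∃ D, D = 3 * V - T ^ 2 - 18 * T + 3 := ⟨_, rfl⟩
  have F : N ^ 3 + 18 * N ^ 2 * ((T + 3) * D) + (81 - T) * N * ((T + 3) * D) ^ 2 -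
      8 * T * ((T + 3) * D) ^ 3 = 0 := by
    rw [hN, hD]
    linear_combination (T ^ 5 + 27 * T ^ 4 + 162 * T ^ 3 + 270 * T ^ 2 - 243 * T - 729) * h
  have hD0 : D ≠ 0 := by
    rintro rfl
    have hN0 : N = 0 := pow_eq_zero_iff (n := 3) (by norm_num) |>.1 (by linear_combination F)
    rw [hN0] at hN
    refine mul_ne_zero (pow_ne_zero 2 h3) h27 ?_
    linear_combination 3 * hN + (T ^ 2 + 30 * T + 81) * hD
  refine ⟨N / ((T + 3) * D), ?_⟩
  field_simp
  linear_combination F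

end

variable {K : Type*} [Field K] [NumberField K] [Algebra.IsQuadraticExtension ℚ K]
  [IsTotallyComplex K]

/-- **row (D)**: a point of `X₀(15)` over an imaginary quadratic field whose curve has a rational
point of order two is isogenous to its conjugate -/
theorem partD {n z V : K} (hn : n ≠ 0) (hz : z ≠ 0) (h : n + 5 + 9 / n = 1 / z - z) (hV : V ≠ 0)
    (hj : R3 (729 / (z ^ 2 * n ^ 3)) = R2 V) : QC (R3 (729 / (z ^ 2 * n ^ 3))) := by
  obtain ⟨T, hT⟩ : ∃ T : K, T = 729 / (z ^ 2 * n ^ 3) := ⟨_, rfl⟩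
  have hT0 : T ≠ 0 := by
    rw [hT]; exact div_ne_zero (by norm_num) (mul_ne_zero (pow_ne_zero 2 hz) (pow_ne_zero 3 hn))
  have rat : ∀ q : ℚ, T = q → QC (R3 (729 / (z ^ 2 * n ^ 3))) := fun q k => by
    rw [← hT, k]
    exact QC.of_rat (q := R3 q) (by simp [R3])
  by_cases h3 : T + 3 = 0
  · exact rat (-3) (by push_cast; linear_combination h3)
  by_cases h27 : T ^ 2 + 18 * T - 27 = 0
  · obtain ⟨q, hq⟩ := quad_rat (x := T) (A := 1) (B := 18) (C := -27) one_ne_zero (by norm_num)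
      (by push_cast; linear_combination h27)
    exact rat q hq
  obtain ⟨k, hk⟩ := x06 hT0 hV (hT ▸ hj) h3 h27
  have hk0 : k ≠ 0 := by
    rintro rfl
    exact hT0 (by linear_combination -hk / 8)
  have ha : z ^ 2 * n ^ 3 * (72 / k + 8) ^ 2 = (72 / k) ^ 2 * (72 / k + 9) := by
    rw [hT] at hk
    field_simp at hk ⊢
    linear_combination 64 * hk
  rcases x030 hn hz h ha with j | j | j
  · exact qc_rat hn hz h j
  · exact qc_exc1 hn h j
  · exact qc_exc2 hn h j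

end Vale.Agent.Q017D
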