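import Vale.Agent.Q017B.Rat
import Vale.Agent.Q017B.Tools

/-!
# Points of `X₀(30)` over imaginary quadratic fields
-/

set_option linter.all false

namespace Vale.Agent.Q017D

open NumberField Vale.Agent.Q017B

variable {K : Type*} [Field K] [NumberField K] [Algebra.IsQuadraticExtension ℚ K]

/-- the third point on the line through a point with square abscissa and its conjugate -/
theorem third {a u Y : K} (hu : ¬ ∃ q : ℚ, u = q) (ha : a ^ 2 = u) {g2 g1 : ℚ}
    (h : Y ^ 2 = 5 * u ^ 3 + g2 * u ^ 2 + g1 * u) :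
    ∃ r k l s : ℚ, Y = k * u + l ∧ (k * r + l) ^ 2 = 5 * r ^ 3 + g2 * r ^ 2 + g1 * r ∧
      5 * r = s ^ 2 := by
  obtain ⟨k, l, hY⟩ := line hu Y
  obtain ⟨p, q, hpq⟩ := line hu (u ^ 2)
  obtain ⟨α, β, hab⟩ := line hu a
  have k1 := indep hu (a := 5 * (p ^ 2 + q) + (g2 - k ^ 2) * p + (g1 - 2 * k * l))
    (b := 5 * p * q + (g2 - k ^ 2) * q - l ^ 2) (by
      rw [hY] at h
      push_cast
      linear_combination -h - (5 * u + (g2 - k ^ 2) + p * 5) * hpq)
  have k2 := indep hu (a := α ^ 2 * p + 2 * α * β - 1) (b := α ^ 2 * q + β ^ 2) (by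
      rw [hab] at ha
      push_cast
      linear_combination ha - (α : K) ^ 2 * hpq)
  have hα : α ≠ 0 := by
    rintro rfl
    have := k2.1
    norm_num at this
  have hq : q ≠ 0 := by
    rintro rfl
    have : u * (u - p) = 0 := by
      push_cast at hpq
      linear_combination hpq
    rcases mul_eq_zero.1 this with j | j
    · exact hu ⟨0, by simpa using j⟩
    · exact hu ⟨p, by linear_combination j⟩
  have hβ : β ≠ 0 := by
    rintro rfl
    have : α ^ 2 * q = 0 := by linarith [k2.2]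
    exact (mul_ne_zero (pow_ne_zero 2 hα) hq) this
  refine ⟨-(g2 - k ^ 2 + 5 * p) / 5, k, l, l * α / β, hY, ?_, ?_⟩
  · linear_combination (g2 - k ^ 2 + 5 * p) / 5 * k1.1 - k1.2
  · rw [div_pow, eq_div_iff (pow_ne_zero 2 hβ)]
    linear_combination α ^ 2 * k1.2 - (g2 - k ^ 2 + 5 * p) * k2.2

theorem sq_ne {s : ℚ} {n : ℕ} (hn : ¬ IsSquare n) {c : ℚ} (hc : c = n) : c ≠ s ^ 2 :=
  fun h => no_sq (s := s) hn (by rw [← h, hc])

variable [IsTotallyComplex K]

theorem irr_case {a b W : K} (h1 : a ^ 2 + b ^ 2 = 2)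
    (h2 : W ^ 2 = (5 * a ^ 2 - 1) * (a ^ 2 + 3)) : ∃ q : ℚ, a ^ 2 = q := by
  by_contra hu
  have hv : ¬ ∃ q : ℚ, b ^ 2 = q := by
    rintro ⟨q, hq⟩
    exact hu ⟨2 - q, by push_cast; linear_combination h1 - hq⟩
  obtain ⟨r, k, l, s, e1, e2, e3⟩ := third (Y := a * W) (g2 := 14) (g1 := -3) hu rfl (by
    push_cast; linear_combination a ^ 2 * h2)
  obtain ⟨r', k', l', s', f1, f2, f3⟩ := third (Y := b * W) (g2 := -34) (g1 := 45) hv rfl (by
    push_cast
    linear_combination b ^ 2 * h2 + b ^ 2 * (5 * a ^ 2 - 5 * b ^ 2 + 24) * h1)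
  generalize hu' : a ^ 2 = u at *
  have hb : b ^ 2 = 2 - u := by linear_combination h1
  have ha : (a * W) ^ 2 = u * ((5 * u - 1) * (u + 3)) := by rw [mul_pow, hu', h2]
  have hb' : (b * W) ^ 2 = (2 - u) * ((5 * u - 1) * (u + 3)) := by rw [mul_pow, hb, h2]
  rw [e1] at ha
  rw [f1, hb] at hb'
  have cancel : ∀ c : ℚ, u - c ≠ 0 := fun c j => hu ⟨c, by linear_combination j⟩
  have A : 5 * u ^ 2 + (15 - k ^ 2) * u + k ^ 2 / 5 = 0 := by
    have hs : 0 ≤ 5 * r := by rw [e3]; positivity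
    rcases rat15' (x := 5 * r - 1) (y := 5 * (k * r + l)) (by linear_combination 25 * e2) with
      j | j | j | j | j
    · have hr : r = 1 / 5 := by linarith
      have hl : l = -k / 5 := by
        have : (k * r + l) ^ 2 = 0 := by rw [e2, hr]; norm_num
        have := pow_eq_zero_iff two_ne_zero |>.1 this
        rw [hr] at this; linarith
      apply mul_left_cancel₀ (cancel (1 / 5))
      rw [hl] at ha
      push_cast at ha ⊢
      linear_combination -ha
    · have hr : r = 0 := by linarith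
      have hl : l = 0 := by
        have : (k * r + l) ^ 2 = 0 := by rw [e2, hr]; norm_num
        have := pow_eq_zero_iff two_ne_zero |>.1 this
        rw [hr] at this; linarith
      refine absurd (quad_rat (x := u) (A := 5) (B := 14 - k ^ 2) (C := -3) (by norm_num)
        (by nlinarith [sq_nonneg (14 - k ^ 2)]) ?_) hu
      apply mul_left_cancel₀ (cancel 0)
      rw [hl] at ha
      push_cast at ha ⊢
      linear_combination -ha
    · linarith
    · exact absurd e3 (sq_ne (n := 5) (by decide +kernel) (by push_cast; linarith))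
    · linarith
  have B : 5 * u ^ 2 + (k' ^ 2 - 11) * u + (2 + 3 * k' ^ 2) = 0 := by
    rcases rat15 (x := 5 * r' - 25) (y := 5 * (k' * r' + l')) (by linear_combination 25 * f2) with
      j | j | j | j | j
    · have hr : r' = 5 := by linarith
      have hl : l' = -5 * k' := by
        have : (k' * r' + l') ^ 2 = 0 := by rw [f2, hr]; norm_num
        have := pow_eq_zero_iff two_ne_zero |>.1 this
        rw [hr] at this; linarith
      apply mul_left_cancel₀ (cancel (-3))
      rw [hl] at hb'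
      push_cast at hb' ⊢
      linear_combination hb'
    · have hr : r' = 9 / 5 := by linarith
      have hl : l' = -9 / 5 * k' := by
        have : (k' * r' + l') ^ 2 = 0 := by rw [f2, hr]; norm_num
        have := pow_eq_zero_iff two_ne_zero |>.1 this
        rw [hr] at this; linarith
      refine absurd (quad_rat (x := u) (A := 5) (B := 5 + k' ^ 2) (C := -30 - k' ^ 2 / 5)
        (by norm_num) (by nlinarith [sq_nonneg (5 + k' ^ 2), sq_nonneg k']) ?_) hu
      apply mul_left_cancel₀ (cancel (1 / 5))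
      rw [hl] at hb'
      push_cast at hb' ⊢
      linear_combination hb'
    · have hr : r' = 0 := by linarith
      have hl : l' = 0 := by
        have : (k' * r' + l') ^ 2 = 0 := by rw [f2, hr]; norm_num
        have := pow_eq_zero_iff two_ne_zero |>.1 this
        rw [hr] at this; linarith
      refine absurd (quad_rat (x := u) (A := 5) (B := 14 + k' ^ 2) (C := -3 - 2 * k' ^ 2)
        (by norm_num) (by nlinarith [sq_nonneg (14 + k' ^ 2), sq_nonneg k']) ?_) hu
      apply mul_left_cancel₀ (cancel 2)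
      rw [hl] at hb'
      push_cast at hb' ⊢
      linear_combination hb'
    · exact absurd f3 (sq_ne (n := 45) (by decide +kernel) (by push_cast; linarith))
    · exact absurd f3 (sq_ne (n := 5) (by decide +kernel) (by push_cast; linarith))
  have C := indep hu (a := 26 - k ^ 2 - k' ^ 2) (b := k ^ 2 / 5 - 2 - 3 * k' ^ 2) (by
    push_cast; linear_combination A - B)
  have hk : (k : K) ^ 2 = 25 := by
    have : k ^ 2 = 25 := by linarith [C.1, C.2]
    exact_mod_cast this
  have : (u - (1 : ℚ)) ^ 2 = 0 := by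
    push_cast
    linear_combination A / 5 + (u / 5 - 1 / 25) * hk
  exact cancel 1 (pow_eq_zero_iff two_ne_zero |>.1 this)

/-- the model `a² + b² = 2`, `W² = (5a² - 1)(a² + 3)` -/
theorem core {a b W : K} (h1 : a ^ 2 + b ^ 2 = 2)
    (h2 : W ^ 2 = (5 * a ^ 2 - 1) * (a ^ 2 + 3)) :
    ((∃ q : ℚ, a = q) ∧ ∃ q : ℚ, b = q) ∨ b ^ 2 = 9 := by
  obtain ⟨q, hq⟩ := irr_case h1 h2
  have hb : b ^ 2 = ((2 - q : ℚ) : K) := by push_cast; linear_combination h1 - hq
  have hA : (a * W) ^ 2 = ((q * ((5 * q - 1) * (q + 3)) : ℚ) : K) := by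
    rw [mul_pow, h2, hq]; push_cast; ring
  have hB : (b * W) ^ 2 = (((2 - q) * ((5 * q - 1) * (q + 3)) : ℚ) : K) := by
    rw [mul_pow, h2, hq, hb]; push_cast; ring
  have LA : 0 ≤ q * ((5 * q - 1) * (q + 3)) →
      q = 1 / 5 ∨ q = 0 ∨ q = -3 ∨ q = 1 ∨ q = -3 / 5 := fun j => by
    obtain ⟨y, hy⟩ := real_rat j hA
    rw [hy] at hA
    have hA' : y ^ 2 = q * ((5 * q - 1) * (q + 3)) := by exact_mod_cast hA
    rcases rat15' (x := 5 * q - 1) (y := 5 * y) (by linear_combination 25 * hA') with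
      j | j | j | j | j
    · left; linarith
    · right; left; linarith
    · right; right; left; linarith
    · right; right; right; left; linarith
    · right; right; right; right; linarith
  have LB : 0 ≤ (2 - q) * ((5 * q - 1) * (q + 3)) →
      q = -3 ∨ q = 1 / 5 ∨ q = 2 ∨ q = -7 ∨ q = 1 := fun j => by
    obtain ⟨y, hy⟩ := real_rat j hB
    rw [hy] at hB
    have hB' : y ^ 2 = (2 - q) * ((5 * q - 1) * (q + 3)) := by exact_mod_cast hB
    rcases rat15 (x := -15 - 5 * q) (y := 5 * y) (by linear_combination 25 * hB') with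
      j | j | j | j | j
    · left; linarith
    · right; left; linarith
    · right; right; left; linarith
    · right; right; right; left; linarith
    · right; right; right; right; linarith
  rcases lt_or_ge q 0 with h0 | h0
  · obtain ⟨t, ht⟩ := real_rat (by linarith) hb
    have ht' : t ^ 2 = 2 - q := by rw [ht] at hb; exact_mod_cast hb
    have n3 : q ≠ -3 := fun j => not_sq_five t (by rw [ht', j]; norm_num)
    rcases le_total 0 ((5 * q - 1) * (q + 3)) with j | j
    · rcases LB (mul_nonneg (by linarith) j) with i | i | i | i | i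
      · exact absurd i n3
      · linarith
      · linarith
      · right; rw [hb, i]; norm_num
      · linarith
    · rcases LA (mul_nonneg_of_nonpos_of_nonpos h0.le j) with i | i | i | i | i
      · linarith
      · linarith
      · exact absurd i n3
      · linarith
      · exact absurd (show (65 : ℚ) = (5 * t) ^ 2 by rw [mul_pow, ht', i]; norm_num)
          (sq_ne (n := 65) (by decide +kernel) (by norm_num))
  · rcases le_or_gt q 2 with h2' | h2'
    · exact Or.inl ⟨real_rat h0 hq, real_rat (by linarith) hb⟩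
    · rcases LA (mul_nonneg h0 (mul_nonneg (by linarith) (by linarith))) with i | i | i | i | i <;>
        linarith

theorem no_sqrt5 {z : K} {c : ℚ} (hc : c ≠ 0) (h : z ^ 2 = 5 * (c : K) ^ 2) : False := by
  obtain ⟨q, hq⟩ := real_rat (z := z) (D := 5 * c ^ 2) (by positivity) (by push_cast; exact h)
  rw [hq] at h
  have : q ^ 2 = 5 * c ^ 2 := by exact_mod_cast h
  exact not_sq_five (q / c) (by rw [div_pow, this]; field_simp)

/-- **the hyperelliptic model of `X₀(30)`** -/
theorem hyper {x y : K}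
    (h : y ^ 2 = (x ^ 2 - x - 1) * (x ^ 2 - 4 * x - 1) * (x ^ 4 - x ^ 3 + 2 * x ^ 2 + x + 1)) :
    (∃ q : ℚ, x = q) ∨ x ^ 2 - x + 2 = 0 ∨ 2 * x ^ 2 + x + 1 = 0 := by
  have hd : x ^ 2 + 1 ≠ 0 := fun j => by
    refine no_sqrt5 (z := x * y) (c := 2) (by norm_num) ?_
    push_cast
    linear_combination x ^ 2 * h +
      (x ^ 8 - 6 * x ^ 7 + 8 * x ^ 6 - 12 * x ^ 4 + 6 * x ^ 3 + 21 * x ^ 2 - 20) * j
  rcases core (a := (-x ^ 2 + 2 * x + 1) / (x ^ 2 + 1)) (b := (x ^ 2 + 2 * x - 1) / (x ^ 2 + 1))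
    (W := 4 * y / (x ^ 2 + 1) ^ 2) (by field_simp; ring)
    (by field_simp; linear_combination 16 * h) with ⟨⟨p, hp⟩, ⟨q, hq⟩⟩ | j
  · left
    have e : x * (p - q + 2) = p + q := by rw [← hp, ← hq]; field_simp; ring
    have e' : (p - q + 2 : K) ≠ 0 := by
      rw [← hp, ← hq]
      have : (-x ^ 2 + 2 * x + 1) / (x ^ 2 + 1) - (x ^ 2 + 2 * x - 1) / (x ^ 2 + 1) + 2 =
          4 / (x ^ 2 + 1) := by field_simp; ring
      rw [this]
      exact div_ne_zero (by norm_num) hd
    exact ⟨(p + q) / (p - q + 2), by push_cast; rw [eq_div_iff e']; exact e⟩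
  · right
    rw [div_pow, div_eq_iff (pow_ne_zero 2 hd)] at j
    have : (x ^ 2 - x + 2) * (2 * x ^ 2 + x + 1) = 0 := by linear_combination -j / 4
    exact mul_eq_zero.1 this

/-- **`X₀(30)` over `X₀(15)`, the cubic of the two-torsion** -/
theorem cubic {n z x : K} (hn : n ≠ 0) (hz : z ≠ 0) (h : n + 5 + 9 / n = 1 / z - z)
    (hx : x ^ 3 - x ^ 2 + z * x + z = 0) :
    (∃ q : ℚ, z = q) ∨ 2 * z ^ 2 - 5 * z + 4 = 0 ∨ 4 * z ^ 2 + 5 * z + 2 = 0 := by
  have h1 : 1 + x ≠ 0 := fun j => by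
    have : x = -1 := by linear_combination j
    rw [this] at hx
    norm_num at hx
  have h2 : x ^ 2 + x - 1 ≠ 0 := fun j =>
    no_sqrt5 (z := 2 * x + 1) (c := 1) (by norm_num) (by push_cast; linear_combination 4 * j)
  have hz' : z = x ^ 2 * (1 - x) / (1 + x) := by
    rw [eq_div_iff h1]; linear_combination hx
  have e0 : ((n - 9 / n) * z) ^ 2 = (1 + z - z ^ 2) * (1 - 11 * z - z ^ 2) := by
    have : (n - 9 / n) ^ 2 = (n + 9 / n) ^ 2 - 36 := by field_simp; ring
    rw [mul_pow, this, show n + 9 / n = 1 / z - z - 5 by linear_combination h]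
    field_simp; ring
  have e1 : (1 + z - z ^ 2) * (1 + x) ^ 2 =
      -((x ^ 2 - x - 1) * (x ^ 4 - x ^ 3 + 2 * x ^ 2 + x + 1)) := by
    rw [hz']; field_simp; ring
  have e2 : (1 - 11 * z - z ^ 2) * (1 + x) ^ 2 = -((x ^ 2 + x - 1) ^ 2 * (x ^ 2 - 4 * x - 1)) := by
    rw [hz']; field_simp; ring
  rcases hyper (x := x) (y := (n - 9 / n) * z * (1 + x) ^ 2 / (x ^ 2 + x - 1)) (by
    rw [div_pow, div_eq_iff (pow_ne_zero 2 h2), mul_pow, e0]
    linear_combination (1 - 11 * z - z ^ 2) * (1 + x) ^ 2 * e1 -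
      ((x ^ 2 - x - 1) * (x ^ 4 - x ^ 3 + 2 * x ^ 2 + x + 1)) * e2) with ⟨q, hq⟩ | j | j
  · left
    exact ⟨q ^ 2 * (1 - q) / (1 + q), by rw [hz', hq]; push_cast; rfl⟩
  · right; left
    have : z = (x + 2) / 2 := by
      rw [hz', div_eq_div_iff h1 two_ne_zero]; linear_combination (-2 * x - 1) * j
    rw [this]; linear_combination j / 2
  · right; right
    have : z = (x - 1) / 2 := by
      rw [hz', div_eq_div_iff h1 two_ne_zero]; linear_combination (-x + 1) * j
    rw [this]; linear_combination j / 2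

/-- **`X₀(30)` as the fibre product of `X₀(15)` and `X₀(6)`** -/
theorem x030 {n z a : K} (hn : n ≠ 0) (hz : z ≠ 0) (h : n + 5 + 9 / n = 1 / z - z)
    (ha : z ^ 2 * n ^ 3 * (a + 8) ^ 2 = a ^ 2 * (a + 9)) :
    (∃ q : ℚ, z = q) ∨ 2 * z ^ 2 - 5 * z + 4 = 0 ∨ 4 * z ^ 2 + 5 * z + 2 = 0 := by
  have hC : z * (n ^ 2 + 5 * n + 9) = n * (1 - z ^ 2) := by
    field_simp at h; linear_combination h
  have h8 : a + 8 ≠ 0 := fun j => by
    have : a = -8 := by linear_combination j
    rw [this] at ha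
    norm_num at ha
  obtain ⟨N, hN⟩ : ∃ N, N = 5 * a + (a + 8) * (n - 9 * z - 5 * n * z) := ⟨_, rfl⟩
  obtain ⟨D, hD⟩ : ∃ D, D = a * (n + 5 + z) + 5 * n * z * (a + 8) := ⟨_, rfl⟩
  have F : N ^ 3 - N ^ 2 * D + z * N * D ^ 2 + z * D ^ 3 = 0 := by
    rw [hN, hD]
    linear_combination
      (200*n^3*z^3 - 120*n^3*z^2 + 8*n^3*z + 200*n^2*z^4 + 960*n^2*z^3 - 976*n^2*z^2 + 80*n^2*z +
        80*n*z^4 + 2024*n*z^3 - 2040*n*z^2 + 200*n*z + 8*z^4 + 880*z^3 - 800*z^2) * ha +
      ((a + 8) ^ 2 * (-200*n^4*z^4 + 120*n^4*z^3 - 8*n^4*z^2 - 80*n^3*z^4 + 184*n^3*z^3 +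
        80*n^3*z^2 - 8*n^3*z - 8*n^2*z^4 - 120*n^2*z^3 - 336*n^2*z^2 + 120*n^2*z - 8*n^2 +
        72*n*z^3) - 2480*n*z^2*a^2 - 30080*n*z^2*a - 69120*n*z^2 + 904*n*z*a^2 + 9344*n*z*a +
        9216*n*z - 80*n*a^2 - 640*n*a - 1288*z^2*a^2 - 16128*z^2*a - 41472*z^2 + 520*z*a^2 +
        5760*z*a - 200*a^2) * hC
  have hD0 : D ≠ 0 := by
    rintro rfl
    have hN0 : N = 0 := pow_eq_zero_iff (n := 3) (by norm_num) |>.1 (by linear_combination F)
    rw [hN0] at hN
    refine no_sqrt5 (z := 2 * (n + 5 + z) - 5) (c := 5) (by norm_num) ?_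
    apply mul_left_cancel₀ (mul_ne_zero (mul_ne_zero hn hz) h8)
    push_cast
    linear_combination 20 * hD - 4 * (n + 5 + z) * hN + 4 * (a + 8) * (n + 5 + z) * hC
  exact cubic hn hz h (x := N / D) (by field_simp; linear_combination F)

end Vale.Agent.Q017D
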