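import Vale.Agent.Q017.Defs
import Vale.Agent.Q017A.Rel

/-!
# Stable subgroups of order `2`, `3`, `5` give points of `X₀(2)`, `X₀(3)`, `X₀(5)`
-/

set_option linter.all false

open WeierstrassCurve
open scoped Classical

namespace Vale.Agent.Q017D

open Vale.Agent.Q017 Vale.Agent.Q017A

universe u

section alg
variable {F : Type u} [Field F] {W : WeierstrassCurve F}

/-- the abscissa of a point -/
def X : W.toAffine.Point → F
  | .zero => 0
  | .some x _ _ => x

/-- the two-division cubic at `x` -/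
def B6 (W : WeierstrassCurve F) (x : F) : F := 4 * x ^ 3 + W.b₂ * x ^ 2 + 2 * W.b₄ * x + W.b₆
/-- half of its derivative -/
def B4 (W : WeierstrassCurve F) (x : F) : F := 6 * x ^ 2 + W.b₂ * x + W.b₄
/-- half of its second derivative -/
def B2 (W : WeierstrassCurve F) (x : F) : F := 12 * x + W.b₂

theorem X_neg (P : W.toAffine.Point) : X (-P) = X P := by
  cases P <;> rfl

theorem X_inj {P Q : W.toAffine.Point} (hP : P ≠ 0) (hQ : Q ≠ 0) (h : X P = X Q) :
    P = Q ∨ P = -Q := by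
  rcases P with _ | ⟨x, y, h1⟩
  · exact absurd rfl hP
  rcases Q with _ | ⟨x', y', h2⟩
  · exact absurd rfl hQ
  exact Affine.Point.X_eq_iff.1 h

theorem sq_eq {x y : F} (h : W.toAffine.Equation x y) :
    (2 * y + W.a₁ * x + W.a₃) ^ 2 = B6 W x := by
  rw [Affine.equation_iff] at h
  simp only [B6, b₂, b₄, b₆]
  linear_combination 4 * h

theorem dbl {P : W.toAffine.Point} (hP : P ≠ 0) (h2 : P + P ≠ 0) :
    ∃ u m : F, u ≠ 0 ∧ u ^ 2 = B6 W (X P) ∧ m * u = B4 W (X P) ∧
      m ^ 2 = W.b₂ + 8 * X P + 4 * X (P + P) := by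
  rcases P with _ | ⟨x, y, h1⟩
  · exact absurd rfl hP
  have hy : y ≠ W.toAffine.negY x y := fun k => h2 (Affine.Point.add_self_of_Y_eq k)
  have hu : 2 * y + W.a₁ * x + W.a₃ ≠ 0 := fun k => hy (by
    simp only [Affine.negY]; linear_combination k)
  refine ⟨2 * y + W.a₁ * x + W.a₃, 2 * W.toAffine.slope x x y y + W.a₁, hu, sq_eq h1.1, ?_, ?_⟩
  · rw [Affine.slope_of_Y_ne rfl hy]
    have e : y - W.toAffine.negY x y = 2 * y + W.a₁ * x + W.a₃ := by
      simp only [Affine.negY]; ring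
    rw [e, add_mul, mul_assoc, div_mul_cancel₀ _ hu]
    simp only [X, B4, b₂, b₄]
    ring
  · rw [Affine.Point.add_self_of_Y_ne hy]
    simp only [X, Affine.addX, b₂]
    ring

theorem c4_shift (x : F) : W.c₄ = B2 W x ^ 2 - 24 * B4 W x := by
  simp only [c₄, B2, B4]; ring

theorem Δ_shift (x : F) : 4 * W.Δ = -B2 W x ^ 2 * (B2 W x * B6 W x - B4 W x ^ 2) -
    32 * B4 W x ^ 3 - 108 * B6 W x ^ 2 + 36 * B2 W x * B4 W x * B6 W x := by
  simp only [Δ, B2, B4, B6]
  linear_combination (-W.b₂ ^ 2) * W.b_relation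

theorem j_mul [W.IsElliptic] : W.j * W.Δ = W.c₄ ^ 3 := by
  rw [j, ← coe_Δ', mul_right_comm, Units.inv_mul, one_mul]

theorem Δ_ne [W.IsElliptic] : W.Δ ≠ 0 := W.isUnit_Δ.ne_zero

variable [CharZero F]

theorem two_tors {P : W.toAffine.Point} (hP : P ≠ 0) (h2 : P + P = 0) : B6 W (X P) = 0 := by
  rcases P with _ | ⟨x, y, h1⟩
  · exact absurd rfl hP
  by_cases hy : y = W.toAffine.negY x y
  · have := sq_eq h1.1
    simp only [Affine.negY] at hy
    rw [show 2 * y + W.a₁ * x + W.a₃ = 0 by linear_combination hy] at this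
    simp only [X]
    rw [← this]; ring
  · rw [Affine.Point.add_self_of_Y_ne hy] at h2
    exact absurd h2 (Affine.Point.some_ne_zero _)

theorem of_root [W.IsElliptic] {e : F} (h : B6 W e = 0) :
    ∃ P : W.toAffine.Point, P ≠ 0 ∧ P + P = 0 ∧ X P = e := by
  have h1 : W.toAffine.Equation e (-(W.a₁ * e + W.a₃) / 2) := by
    rw [Affine.equation_iff]
    simp only [B6, b₂, b₄, b₆] at h
    linear_combination -h / 4
  refine ⟨.some _ _ (Affine.equation_iff_nonsingular.1 h1), Affine.Point.some_ne_zero _,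
    Affine.Point.add_self_of_Y_eq ?_, rfl⟩
  simp only [Affine.negY]; ring

/-- the parameter on `X₀(2)` -/
theorem par2 [W.IsElliptic] {e : F} (h : B6 W e = 0) :
    ∃ V : F, V ≠ 0 ∧ W.j = R2 V := by
  have h1 := Δ_shift (W := W) e
  have h2 := c4_shift (W := W) e
  have h3 := j_mul (W := W)
  have h4 := Δ_ne (W := W)
  rw [h] at h1
  generalize B2 W e = a at *
  generalize B4 W e = b at *
  have hD : W.Δ = b ^ 2 * (a ^ 2 - 32 * b) / 4 := by linear_combination h1 / 4
  have hb : b ≠ 0 := by rintro rfl; exact h4 (by rw [hD]; ring)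
  have ha : a ^ 2 - 32 * b ≠ 0 := fun k => h4 (by rw [hD, k]; ring)
  refine ⟨2 * (a ^ 2 - 32 * b) / b, div_ne_zero (mul_ne_zero two_ne_zero ha) hb, ?_⟩
  rw [← eq_div_iff h4, hD, h2] at h3
  rw [h3, R2]
  field_simp
  ring

/-- the parameter on `X₀(3)` -/
theorem par3 [W.IsElliptic] {P : W.toAffine.Point} (hP : P ≠ 0) (h3 : P + P = -P) :
    B2 W (X P) * B4 W (X P) / B6 W (X P) - 27 ≠ 0 ∧
      W.j = R3 (B2 W (X P) * B4 W (X P) / B6 W (X P) - 27) := by
  obtain ⟨u, m, hu, e6, e4, e2⟩ := dbl hP (by rw [h3]; exact neg_ne_zero.2 hP)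
  rw [h3, X_neg] at e2
  have e2' : m ^ 2 = B2 W (X P) := by rw [e2, B2]; ring
  have h1 := Δ_shift (W := W) (X P)
  have h2 := c4_shift (W := W) (X P)
  have h3 := j_mul (W := W)
  have h4 := Δ_ne (W := W)
  rw [← e6, ← e4, ← e2'] at *
  have hD : W.Δ = u ^ 3 * (m ^ 3 - 27 * u) := by linear_combination h1 / 4
  have ha : m ^ 3 - 27 * u ≠ 0 := fun k => h4 (by rw [hD, k]; ring)
  have e : m ^ 2 * (m * u) / u ^ 2 - 27 = (m ^ 3 - 27 * u) / u := by field_simp
  rw [e]
  refine ⟨div_ne_zero ha hu, ?_⟩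
  rw [← eq_div_iff h4, hD, h2] at h3
  rw [h3, R3]
  field_simp
  ring

/-- the parameter on `X₀(5)` -/
theorem par5 [W.IsElliptic] {P : W.toAffine.Point} (hP : P ≠ 0) (h5 : P + P + (P + P) = -P) :
    (B6 W (X (P + P)) - B6 W (X P)) / (X (P + P) - X P) ^ 3 - 11 ≠ 0 ∧
      W.j = R5 ((B6 W (X (P + P)) - B6 W (X P)) / (X (P + P) - X P) ^ 3 - 11) := by
  have hQ : P + P ≠ 0 := fun k => by
    rw [k, add_zero] at h5
    exact hP (neg_eq_zero.1 h5.symm)
  have hd : X (P + P) - X P ≠ 0 := fun k => by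
    rcases X_inj hQ hP (sub_eq_zero.1 k) with j | j
    · exact hP (by simpa using j)
    · apply hQ
      rw [j, ← neg_add, j] at h5
      rw [j]
      have : P + P = 0 := by
        rw [neg_neg] at h5
        nth_rewrite 2 [h5]
        exact add_neg_cancel P
      rw [← j, this]
  obtain ⟨u, m, hu, e6, e4, e2⟩ := dbl hP hQ
  obtain ⟨u', m', hu', f6, f4, f2⟩ := dbl hQ (by rw [h5]; exact neg_ne_zero.2 hP)
  rw [h5, X_neg] at f2
  have h1 := Δ_shift (W := W) (X P)
  have h2 := c4_shift (W := W) (X P)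
  have h3 := j_mul (W := W)
  have h4 := Δ_ne (W := W)
  obtain ⟨d, hd'⟩ : ∃ d, d = X (P + P) - X P := ⟨_, rfl⟩
  have hx : X (P + P) = X P + d := by rw [hd']; ring
  rw [← hd'] at hd ⊢
  have e2' : B2 W (X P) = m ^ 2 - 4 * d := by rw [e2, hx, B2]; ring
  obtain ⟨w, hw⟩ : ∃ w, w = u + m * d := ⟨_, rfl⟩
  have g6 : B6 W (X (P + P)) = w ^ 2 := by
    have : B6 W (X (P + P)) = 4 * d ^ 3 + B2 W (X P) * d ^ 2 + 2 * B4 W (X P) * d + B6 W (X P) := by
      rw [hx]; simp only [B2, B4, B6]; ring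
    rw [this, e2', ← e4, ← e6, hw]; ring
  have g4 : B4 W (X (P + P)) = m * w + 2 * d ^ 2 := by
    have : B4 W (X (P + P)) = 6 * d ^ 2 + B2 W (X P) * d + B4 W (X P) := by
      rw [hx]; simp only [B2, B4]; ring
    rw [this, e2', ← e4, hw]; ring
  have g2 : m' ^ 2 = m ^ 2 + 4 * d := by rw [f2, e2, hx]; ring
  have key : d ^ 3 = w * u := by
    have k : (m * w + 2 * d ^ 2) ^ 2 = (m ^ 2 + 4 * d) * w ^ 2 := by
      rw [← g4, ← f4, ← g2, ← g6, ← f6]; ring
    apply mul_left_cancel₀ (mul_ne_zero (show (4 : F) ≠ 0 by norm_num) hd)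
    rw [hw] at k ⊢
    linear_combination k
  have hw0 : w ≠ 0 := by
    rintro rfl
    exact pow_ne_zero 3 hd (by rw [key]; ring)
  have hm : m * d = w - u := by rw [hw]; ring
  rw [e2', ← e4, ← e6] at h1
  rw [e2', ← e4] at h2
  have hD : W.Δ = w * u * (w ^ 2 - 11 * w * u - u ^ 2) := by
    have : W.Δ * d ^ 3 = u ^ 2 * ((m * d) ^ 2 - 4 * d ^ 3) ^ 2 - 8 * (m * d) ^ 3 * u ^ 3 -
        27 * u ^ 4 * d ^ 3 + 9 * ((m * d) ^ 2 - 4 * d ^ 3) * (m * d) * u ^ 3 := by
      linear_combination d ^ 3 * h1 / 4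
    rw [hm, key] at this
    apply mul_right_cancel₀ (mul_ne_zero hw0 hu)
    linear_combination this
  have hc : W.c₄ * d ^ 4 = w ^ 4 - 12 * w ^ 3 * u + 14 * w ^ 2 * u ^ 2 + 12 * w * u ^ 3 + u ^ 4 := by
    have : W.c₄ * d ^ 4 = ((m * d) ^ 2 - 4 * d ^ 3) ^ 2 - 24 * (m * d) * u * d ^ 3 := by
      rw [h2]; ring
    rw [this, hm, key]; ring
  have ha : w ^ 2 - 11 * w * u - u ^ 2 ≠ 0 := fun k => h4 (by rw [hD, k]; ring)
  have e : (w ^ 2 - u ^ 2) / (w * u) - 11 = (w ^ 2 - 11 * w * u - u ^ 2) / (w * u) := by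
    field_simp; ring
  rw [g6, ← e6, key, e]
  refine ⟨div_ne_zero ha (mul_ne_zero hw0 hu), ?_⟩
  have hj : W.j * W.Δ * (w * u) ^ 4 =
      (w ^ 4 - 12 * w ^ 3 * u + 14 * w ^ 2 * u ^ 2 + 12 * w * u ^ 3 + u ^ 4) ^ 3 := by
    rw [h3, ← hc, ← key]; ring
  rw [hD, mul_assoc, ← eq_div_iff (mul_ne_zero (mul_ne_zero (mul_ne_zero hw0 hu) ha)
    (pow_ne_zero 4 (mul_ne_zero hw0 hu)))] at hj
  rw [hj, R5]
  generalize hA : w ^ 2 - 11 * w * u - u ^ 2 = A at ha
  field_simp
  rw [← hA]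
  ring

/-- the three roots of the two-division cubic -/
theorem roots3 [IsAlgClosed F] (W : WeierstrassCurve F) : ∃ a b c : F,
    (∀ x, B6 W x = 4 * ((x - a) * (x - b) * (x - c))) ∧
      (4 * ((a - b) * (a - c) * (b - c))) ^ 2 = W.Δ := by
  obtain ⟨a, ha⟩ := IsAlgClosed.exists_root
    (Polynomial.C 4 * Polynomial.X ^ 3 + Polynomial.C W.b₂ * Polynomial.X ^ 2 +
      Polynomial.C (2 * W.b₄) * Polynomial.X + Polynomial.C W.b₆)
    (by rw [Polynomial.degree_cubic (by norm_num)]; norm_num)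
  have ha' : B6 W a = 0 := by simpa [B6] using ha
  obtain ⟨r, hr⟩ := IsAlgClosed.exists_pow_nat_eq (B2 W a ^ 2 - 32 * B4 W a) two_pos
  have h1 := Δ_shift (W := W) a
  rw [ha'] at h1
  refine ⟨a, a + (-B2 W a + r) / 8, a + (-B2 W a - r) / 8, fun x => ?_, ?_⟩
  · have : B6 W x = 4 * (x - a) ^ 3 + B2 W a * (x - a) ^ 2 + 2 * B4 W a * (x - a) + B6 W a := by
      simp only [B2, B4, B6]; ring
    rw [this, ha']
    linear_combination (x - a) / 16 * hr
  · generalize B2 W a = p at *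
    generalize B4 W a = q at *
    have : q = (p ^ 2 - r ^ 2) / 32 := by linear_combination hr / 32
    rw [this] at h1
    linear_combination -h1 / 4

end alg

section gal
variable {K : Type u} [Field K] {E : WeierstrassCurve K}

/-- the curve over the algebraic closure -/
noncomputable abbrev EL (E : WeierstrassCurve K) : WeierstrassCurve (AlgebraicClosure K) :=
  E.baseChange (AlgebraicClosure K)

theorem X_act (s : Gal K) (P : Pt E) : X (act E s P) = s (X P) := by
  rcases P with _ | ⟨x, y, h⟩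
  · exact (map_zero s).symm
  · rfl

theorem act_ne (s : Gal K) {P : Pt E} (hP : P ≠ 0) : act E s P ≠ 0 := fun h =>
  hP (Affine.Point.map_injective (W' := E.toAffine)
    (s : AlgebraicClosure K →ₐ[K] AlgebraicClosure K) (h.trans (map_zero _).symm))

theorem s_B6 (s : Gal K) (x : AlgebraicClosure K) : s (B6 (EL E) x) = B6 (EL E) (s x) := by
  simp [B6, EL, baseChange, map_ofNat]
theorem s_B4 (s : Gal K) (x : AlgebraicClosure K) : s (B4 (EL E) x) = B4 (EL E) (s x) := by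
  simp [B4, EL, baseChange, map_ofNat]
theorem s_B2 (s : Gal K) (x : AlgebraicClosure K) : s (B2 (EL E) x) = B2 (EL E) (s x) := by
  simp [B2, EL, baseChange, map_ofNat]

variable [CharZero K]

theorem fixed {x : AlgebraicClosure K} (h : ∀ s : Gal K, s x = x) :
    ∃ y : K, algebraMap K (AlgebraicClosure K) y = x :=
  (InfiniteGalois.mem_range_algebraMap_iff_fixed x).2 h

instance [E.IsElliptic] : (EL E).IsElliptic := by unfold EL baseChange; infer_instance

theorem EL_j [E.IsElliptic] : (EL E).j = algebraMap K (AlgebraicClosure K) E.j := map_j ..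

theorem nsmul_mod {G : Type*} [AddCommGroup G] {P : G} {p : ℕ} (h : p • P = 0) (k : ℕ) :
    k • P = (k % p) • P := by
  conv_lhs => rw [← Nat.mod_add_div k p, add_nsmul, mul_nsmul, h, nsmul_zero, add_zero]

/-- **G3** -/
theorem G3 [E.IsElliptic] (h : Line E 3 Set.univ) : ∃ T : K, T ≠ 0 ∧ E.j = R3 T := by
  obtain ⟨P, hP, h3, hs⟩ := h
  have h3' : P + P = -P := by
    rw [eq_neg_iff_add_eq_zero, ← h3]; abel
  have hx : ∀ s : Gal K, s (X P) = X P := fun s => by
    obtain ⟨k, hk⟩ := hs s trivial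
    have h0 := act_ne s hP
    rw [← X_act, hk]
    rw [hk] at h0
    rw [nsmul_mod h3] at h0 ⊢
    have : k % 3 = 0 ∨ k % 3 = 1 ∨ k % 3 = 2 := by omega
    rcases this with j | j | j <;> rw [j] at h0 ⊢
    · exact absurd (zero_nsmul P) h0
    · rw [one_nsmul]
    · rw [two_nsmul, h3', X_neg]
  obtain ⟨h1, h2⟩ := par3 (W := EL E) hP h3'
  obtain ⟨T, hT⟩ := fixed (x := B2 (EL E) (X P) * B4 (EL E) (X P) / B6 (EL E) (X P) - 27)
    fun s => by rw [map_sub, map_div₀, map_mul, s_B2, s_B4, s_B6, hx, map_ofNat]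
  rw [← hT] at h1 h2
  rw [EL_j, ← map_R3] at h2
  exact ⟨T, fun k => h1 (by rw [k, map_zero]), (algebraMap K _).injective h2⟩

/-- **G5** -/
theorem G5 [E.IsElliptic] (h : Line E 5 Set.univ) : ∃ S : K, S ≠ 0 ∧ E.j = R5 S := by
  obtain ⟨P, hP, h5, hs⟩ := h
  have h5' : P + P + (P + P) = -P := by
    rw [eq_neg_iff_add_eq_zero, ← h5]; abel
  have hx : ∀ s : Gal K, (s (X P) = X P ∧ s (X (P + P)) = X (P + P)) ∨
      (s (X P) = X (P + P) ∧ s (X (P + P)) = X P) := fun s => by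
    obtain ⟨k, hk⟩ := hs s trivial
    have h0 := act_ne s hP
    rw [← X_act, ← X_act, map_add, hk]
    rw [hk] at h0
    rw [nsmul_mod h5] at h0 ⊢
    have : k % 5 = 0 ∨ k % 5 = 1 ∨ k % 5 = 2 ∨ k % 5 = 3 ∨ k % 5 = 4 := by omega
    rcases this with j | j | j | j | j <;> rw [j] at h0 ⊢
    · exact absurd (zero_nsmul P) h0
    · left; rw [one_nsmul]; exact ⟨rfl, rfl⟩
    · right; rw [two_nsmul, h5', X_neg]; exact ⟨rfl, rfl⟩
    · right
      have a1 : 3 • P = -(P + P) := by rw [eq_neg_iff_add_eq_zero, ← h5]; abel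
      rw [a1, ← neg_add, h5', X_neg, X_neg, X_neg]; exact ⟨rfl, rfl⟩
    · left
      have a1 : 4 • P = -P := by rw [eq_neg_iff_add_eq_zero, ← h5]; abel
      rw [a1, ← neg_add, X_neg, X_neg]; exact ⟨rfl, rfl⟩
  obtain ⟨h1, h2⟩ := par5 (W := EL E) hP h5'
  obtain ⟨S, hS⟩ := fixed
    (x := (B6 (EL E) (X (P + P)) - B6 (EL E) (X P)) / (X (P + P) - X P) ^ 3 - 11) fun s => by
      rw [map_sub, map_div₀, map_sub, map_pow, map_sub, s_B6, s_B6, map_ofNat]
      rcases hx s with ⟨a, b⟩ | ⟨a, b⟩ <;> rw [a, b]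
      rw [← neg_sub (X (P + P)), ← neg_sub (B6 (EL E) (X (P + P))), Odd.neg_pow (by decide),
        neg_div_neg_eq]
  rw [← hS] at h1 h2
  rw [EL_j, ← map_R5] at h2
  exact ⟨S, fun k => h1 (by rw [k, map_zero]), (algebraMap K _).injective h2⟩

theorem root_par2 [E.IsElliptic] {e : AlgebraicClosure K} (he : B6 (EL E) e = 0)
    (h : ∀ s : Gal K, s e = e) : ∃ V : K, V ≠ 0 ∧ E.j = R2 V := by
  obtain ⟨y, rfl⟩ := fixed h
  refine par2 (e := y) ((algebraMap K (AlgebraicClosure K)).injective ?_)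
  rw [map_zero, ← he]
  simp [B6, EL, baseChange, map_ofNat]

theorem sq_of_fixed {δ : AlgebraicClosure K} {c : K} (h : δ ^ 2 = algebraMap K _ c)
    (hs : ∀ s : Gal K, s δ = δ) : IsSquare c := by
  obtain ⟨y, rfl⟩ := fixed hs
  exact ⟨y, (algebraMap K (AlgebraicClosure K)).injective (by rw [← h, map_mul, sq])⟩

theorem pm {δ : AlgebraicClosure K} {c : K} (h : δ ^ 2 = algebraMap K _ c) (s : Gal K) :
    s δ = δ ∨ s δ = -δ := by
  refine sq_eq_sq_iff_eq_or_eq_neg.1 ?_
  rw [← map_pow, h, AlgEquiv.commutes]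

/-- a root fixed by a subgroup of index at most two -/
theorem root_of_sub [E.IsElliptic] {ι : AlgebraicClosure K} {c : K} (hι : ι ^ 2 = algebraMap K _ c)
    {e : AlgebraicClosure K} (he : B6 (EL E) e = 0) (h : ∀ s : Gal K, s ι = ι → s e = e) :
    ∃ V : K, V ≠ 0 ∧ E.j = R2 V := by
  by_cases h0 : ∀ s : Gal K, s e = e
  · exact root_par2 he h0
  obtain ⟨t, ht⟩ := not_forall.1 h0
  have hti : t ι = -ι := (pm hι t).resolve_left fun k => ht (h t k)
  have hti' : t.symm ι = -ι := by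
    rw [AlgEquiv.symm_apply_eq, map_neg, hti, neg_neg]
  have he' : B6 (EL E) (t e) = 0 := by rw [← s_B6, he, map_zero]
  have hsum : ∀ s : Gal K, s e + s (t e) = e + t e := fun s => by
    rcases pm hι s with k | k
    · have a := h ((t.trans s).trans t.symm) (by
        simp only [AlgEquiv.trans_apply]; rw [hti, map_neg, k, map_neg, hti', neg_neg])
      simp only [AlgEquiv.trans_apply] at a
      rw [AlgEquiv.symm_apply_eq] at a
      rw [h s k, a]
    · have a := h (s.trans t.symm) (by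
        simp only [AlgEquiv.trans_apply]; rw [k, map_neg, hti', neg_neg])
      have b := h (t.trans s) (by
        simp only [AlgEquiv.trans_apply]; rw [hti, map_neg, k, neg_neg])
      simp only [AlgEquiv.trans_apply] at a b
      rw [AlgEquiv.symm_apply_eq] at a
      rw [a, b, add_comm]
  refine root_par2 (e := -(EL E).b₂ / 4 - (e + t e)) ?_ fun s => ?_
  · apply mul_left_cancel₀ (sub_ne_zero.2 ht)
    simp only [B6] at he he' ⊢
    linear_combination (-(EL E).b₂ / 4 - (e + t e) - e) * he' -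
      (-(EL E).b₂ / 4 - (e + t e) - t e) * he
  · rw [map_sub, map_add, hsum]
    simp [EL, baseChange, map_ofNat]

theorem two_gen [E.IsElliptic] {ι : AlgebraicClosure K} {c : K} (hι : ι ^ 2 = algebraMap K _ c)
    {H : Set (Gal K)} (hH : ∀ s : Gal K, s ∈ H ↔ s ι = ι) (h : ¬ AbsIrr E 2 H) :
    (∃ V : K, V ≠ 0 ∧ E.j = R2 V) ∨ IsSquare E.Δ ∨ IsSquare (c * E.Δ) := by
  by_cases hL : Line E 2 H
  · left
    obtain ⟨P, hP, h2, hs⟩ := hL
    refine root_of_sub hι (two_tors (W := EL E) hP (by rw [← two_nsmul]; exact h2)) fun s hs' => ?_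
    obtain ⟨k, hk⟩ := hs s ((hH s).2 hs')
    have h0 := act_ne s hP
    rw [← X_act, hk]
    rw [hk] at h0
    rw [nsmul_mod h2] at h0 ⊢
    have : k % 2 = 0 ∨ k % 2 = 1 := by omega
    rcases this with j | j <;> rw [j] at h0 ⊢
    · exact absurd (zero_nsmul P) h0
    · rw [one_nsmul]
  have hC : Comm E 2 H := by
    by_contra k
    exact h ⟨hL, k⟩
  have hC' : ∀ s t : Gal K, s ι = ι → t ι = ι → ∀ e, B6 (EL E) e = 0 → s (t e) = t (s e) := by
    intro s t hs ht e he
    obtain ⟨P, -, h2, rfl⟩ := of_root he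
    have := congrArg X (hC s ((hH s).2 hs) t ((hH t).2 ht) P (by rw [two_nsmul]; exact h2))
    simpa only [X_act] using this
  obtain ⟨a, b, d, hf, hδ⟩ := roots3 (EL E)
  obtain ⟨δ, hδ'⟩ : ∃ δ, δ = 4 * ((a - b) * (a - d) * (b - d)) := ⟨_, rfl⟩
  have hδ2 : δ ^ 2 = algebraMap K _ E.Δ := by rw [hδ', hδ]; simp [EL, baseChange]
  have hδ0 : δ ≠ 0 := fun k => Δ_ne (W := EL E) (by rw [← hδ, ← hδ', k]; ring)
  have hroot : ∀ e, B6 (EL E) e = 0 ↔ e = a ∨ e = b ∨ e = d := fun e => by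
    rw [hf]
    simp only [mul_eq_zero, sub_eq_zero, or_assoc]
    norm_num
  have hab : a ≠ b := fun k => hδ0 (by rw [hδ', k]; ring)
  have had : a ≠ d := fun k => hδ0 (by rw [hδ', k]; ring)
  have hbd : b ≠ d := fun k => hδ0 (by rw [hδ', k]; ring)
  have hst : ∀ (s : Gal K) e, B6 (EL E) e = 0 → B6 (EL E) (s e) = 0 := fun s e he => by
    rw [← s_B6, he, map_zero]
  by_cases h1 : ∀ s : Gal K, s ι = ι → s δ = δ
  · right
    by_cases h2 : ∀ s : Gal K, s δ = δ
    · exact Or.inl (sq_of_fixed hδ2 h2)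
    right
    obtain ⟨t, ht⟩ := not_forall.1 h2
    have hti : t ι = -ι := (pm hι t).resolve_left fun k => ht (h1 t k)
    have htd : t δ = -δ := (pm hδ2 t).resolve_left ht
    refine sq_of_fixed (δ := ι * δ) (by rw [mul_pow, hι, hδ2, map_mul]) fun s => ?_
    rw [map_mul]
    rcases pm hι s with k | k
    · rw [k, h1 s k]
    · have a := h1 (s.trans t) (by
        simp only [AlgEquiv.trans_apply]; rw [k, map_neg, hti, neg_neg])
      simp only [AlgEquiv.trans_apply] at a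
      rcases pm hδ2 s with j | j
      · rw [j, htd] at a
        exact absurd (by linear_combination -a / 2) hδ0
      · rw [k, j]; ring
  left
  push Not at h1
  obtain ⟨s, hs, hsδ⟩ := h1
  have key : ∃ e, B6 (EL E) e = 0 ∧ ∀ e', B6 (EL E) e' = 0 → (s e' = e' ↔ e' = e) := by
    have sδ : s δ = 4 * ((s a - s b) * (s a - s d) * (s b - s d)) := by
      rw [hδ']; simp [map_ofNat]
    have sab : s a ≠ s b := fun k => hab (s.injective k)
    have sad : s a ≠ s d := fun k => had (s.injective k)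
    have sbd : s b ≠ s d := fun k => hbd (s.injective k)
    have ra := (hroot a).2 (Or.inl rfl)
    have rb := (hroot b).2 (Or.inr (Or.inl rfl))
    have rd := (hroot d).2 (Or.inr (Or.inr rfl))
    rcases (hroot _).1 (hst s a ra) with i | i | i <;>
    rcases (hroot _).1 (hst s b rb) with j | j | j <;>
    rcases (hroot _).1 (hst s d rd) with k | k | k <;>
    first
    | exact absurd (i.trans j.symm) sab
    | exact absurd (i.trans k.symm) sad
    | exact absurd (j.trans k.symm) sbd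
    | (refine absurd ?_ hsδ; rw [sδ, hδ', i, j, k]; ring1)
    | (refine absurd ?_ hsδ; rw [sδ, hδ', i, j, k]; done)
    | (refine ⟨a, ra, fun e' he' => ?_⟩
       rcases (hroot _).1 he' with l | l | l <;> rw [l] <;>
         simp [i, j, k, hab, had, hbd, hab.symm, had.symm, hbd.symm] <;> done)
    | (refine ⟨b, rb, fun e' he' => ?_⟩
       rcases (hroot _).1 he' with l | l | l <;> rw [l] <;>
         simp [i, j, k, hab, had, hbd, hab.symm, had.symm, hbd.symm] <;> done)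
    | (refine ⟨d, rd, fun e' he' => ?_⟩
       rcases (hroot _).1 he' with l | l | l <;> rw [l] <;>
         simp [i, j, k, hab, had, hbd, hab.symm, had.symm, hbd.symm] <;> done)
  obtain ⟨e, he, hk⟩ := key
  refine root_of_sub hι he fun t ht => (hk _ (hst t e he)).1 ?_
  rw [hC' s t hs ht e he, (hk e he).2 rfl]

omit [CharZero K] in
theorem j1728 [E.IsElliptic] {c : K} (h : IsSquare (c * E.Δ)) : IsSquare (c * (E.j - 1728)) := by
  obtain ⟨r, hr⟩ := h
  have h4 := Δ_ne (W := E)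
  refine ⟨r * E.c₆ / E.Δ, ?_⟩
  field_simp
  linear_combination c * E.Δ * j_mul (W := E) - c * E.Δ * E.c_relation + E.c₆ ^ 2 * hr

/-- **G2**, full Galois group -/
theorem G2 [E.IsElliptic] (h : ¬ AbsIrr E 2 Set.univ) :
    (∃ V : K, V ≠ 0 ∧ E.j = R2 V) ∨ IsSquare (E.j - 1728) := by
  rcases two_gen (ι := 1) (c := 1) (by simp) (fun s => by simp) h with k | k | k
  · exact Or.inl k
  · right; simpa using j1728 (E := E) (c := 1) (by simpa using k)
  · right; simpa using j1728 k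

/-- **G2**, over `K(i)` -/
theorem G2' [E.IsElliptic] (h : ¬ AbsIrr E 2 (Cyc K 4)) :
    (∃ V : K, V ≠ 0 ∧ E.j = R2 V) ∨ IsSquare (E.j - 1728) ∨ IsSquare (1728 - E.j) := by
  obtain ⟨ι, hι⟩ := IsAlgClosed.exists_pow_nat_eq (-1 : AlgebraicClosure K) two_pos
  have hH : ∀ s : Gal K, s ∈ Cyc K 4 ↔ s ι = ι := fun s => by
    refine ⟨fun k => k ι (by linear_combination (ι ^ 2 - 1) * hι), fun k x hx => ?_⟩
    have : (x - 1) * (x + 1) * ((x - ι) * (x + ι)) = 0 := by
      linear_combination hx - (x ^ 2 - 1) * hι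
    simp only [mul_eq_zero, sub_eq_zero, add_eq_zero_iff_eq_neg] at this
    rcases this with (j | j) | (j | j) <;> simp [j, k]
  rcases two_gen (ι := ι) (c := -1) (by simpa using hι) hH h with k | k | k
  · exact Or.inl k
  · right; left; simpa using j1728 (E := E) (c := 1) (by simpa using k)
  · right; right; simpa using j1728 k

end gal

end Vale.Agent.Q017D
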