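import Vale.Agent.Q017B.Rat

/-!
# Arithmetic of the cubic field of discriminant `-300`
-/

set_option linter.all false

namespace Vale.Agent.Q017D

open NumberField Polynomial InfinitePlace Module Vale.Agent.Q017B

/-- the defining polynomial -/
noncomputable def f3 : ℚ[X] := X ^ 3 - X ^ 2 - 3 * X - 3

theorem f3_deg : f3.natDegree = 3 := by unfold f3; compute_degree!

theorem f3_monic : f3.Monic := by unfold f3; monicity!

theorem f3_noroot (r : ℚ) : r ^ 3 - r ^ 2 - 3 * r - 3 ≠ 0 := by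
  intro h
  have ea : (r.num : ℚ) = r * r.den := (Rat.mul_den_eq_num r).symm
  have e : r.num ^ 3 - r.num ^ 2 * r.den - 3 * r.num * r.den ^ 2 - 3 * (r.den : ℤ) ^ 3 = 0 := by
    have : ((r.num ^ 3 - r.num ^ 2 * r.den - 3 * r.num * r.den ^ 2 - 3 * (r.den : ℤ) ^ 3 : ℤ) : ℚ)
        = 0 := by
      push_cast; rw [ea]; linear_combination (r.den : ℚ) ^ 3 * h
    exact_mod_cast this
  have k : ∀ a b : ZMod 7, a ^ 3 - a ^ 2 * b - 3 * a * b ^ 2 - 3 * b ^ 3 = 0 → a = 0 ∧ b = 0 := by
    decide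
  obtain ⟨k1, k2⟩ := k r.num r.den (by exact_mod_cast congrArg (Int.cast : ℤ → ZMod 7) e)
  have h1 := (ZMod.intCast_zmod_eq_zero_iff_dvd _ 7).1 k1
  have h2 := (ZMod.natCast_eq_zero_iff _ 7).1 k2
  have := Nat.dvd_gcd (Int.natCast_dvd.1 h1) h2
  rw [r.reduced] at this
  omega

instance f3_irr : Fact (Irreducible f3) := ⟨by
  refine (irreducible_iff_roots_eq_zero_of_degree_le_three (by rw [f3_deg]; norm_num)
    (by rw [f3_deg])).2 ?_
  rw [Multiset.eq_zero_iff_forall_notMem]
  intro r hr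
  rw [mem_roots f3_monic.ne_zero] at hr
  exact f3_noroot r (by simpa [f3] using hr)⟩

/-- the cubic field -/
abbrev K3 : Type := AdjoinRoot f3

instance : NumberField K3 := AdjoinRoot.instNumberFieldRat

/-- the generator -/
noncomputable def φ : K3 := AdjoinRoot.root f3

theorem hφ : φ ^ 3 - φ ^ 2 - 3 * φ - 3 = 0 := by
  have := AdjoinRoot.aeval_eq (f := f3) f3
  rw [AdjoinRoot.mk_self] at this
  have h2 : aeval φ (X ^ 3 - X ^ 2 - 3 * X - 3 : ℚ[X]) = 0 := this
  simpa [map_ofNat] using h2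

theorem rk3 : finrank ℚ K3 = 3 := by
  rw [(AdjoinRoot.powerBasis f3_monic.ne_zero).finrank, AdjoinRoot.powerBasis_dim, f3_deg]

/-- elements in coordinates -/
noncomputable def el (a b c : ℚ) : K3 := a + b * φ + c * φ ^ 2

theorem el_zero {a b c : ℚ} (h : el a b c = 0) : a = 0 ∧ b = 0 ∧ c = 0 := by
  have h1 : AdjoinRoot.mk f3 (C a + C b * X + C c * X ^ 2) = 0 := by
    rw [← AdjoinRoot.aeval_eq, ← h]; simp [el, φ]
  rw [AdjoinRoot.mk_eq_zero] at h1
  have h2 := eq_zero_of_dvd_of_natDegree_lt h1 (by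
    rw [f3_deg]
    have : (C a + C b * X + C c * X ^ 2 : ℚ[X]).natDegree ≤ 2 := by compute_degree
    omega)
  have c0 := congrArg (fun P => P.coeff 0) h2
  have c1 := congrArg (fun P => P.coeff 1) h2
  have c2 := congrArg (fun P => P.coeff 2) h2
  simp [coeff_X, coeff_C] at c0 c1 c2
  exact ⟨c0, c1, c2⟩

theorem el_inj {a b c a' b' c' : ℚ} (h : el a b c = el a' b' c') : a = a' ∧ b = b' ∧ c = c' := by
  have := el_zero (a := a - a') (b := b - b') (c := c - c') (by
    unfold el at *; push_cast; linear_combination h)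
  exact ⟨by linarith [this.1], by linarith [this.2.1], by linarith [this.2.2]⟩

theorem el_mul (a b c p q r : ℚ) : el a b c * el p q r =
    el (a * p + 3 * (b * r + c * q) + 3 * c * r) (a * q + b * p + 3 * (b * r + c * q) + 6 * c * r)
      (a * r + b * q + c * p + (b * r + c * q) + 4 * c * r) := by
  unfold el; push_cast
  linear_combination ((b : K3) * r + c * q + c * r * φ + c * r) * hφ

theorem li3 : LinearIndependent ℚ ![(1 : K3), φ, φ ^ 2] := by
  rw [Fintype.linearIndependent_iff]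
  intro g hg i
  have := el_zero (a := g 0) (b := g 1) (c := g 2) (by
    simpa [Fin.sum_univ_three, el, Algebra.smul_def] using hg)
  fin_cases i
  · exact this.1
  · exact this.2.1
  · exact this.2.2

/-- the power basis -/
noncomputable def bs : Basis (Fin 3) ℚ K3 :=
  basisOfLinearIndependentOfCardEqFinrank li3 (by simp [rk3])

theorem bs_coe : (bs : Fin 3 → K3) = ![1, φ, φ ^ 2] := by simp [bs]

theorem repr_el (a b c : ℚ) : ⇑(bs.repr (el a b c)) = ![a, b, c] := by
  have : el a b c = ∑ i, ![a, b, c] i • bs i := by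
    simp [Fin.sum_univ_three, bs_coe, el, Algebra.smul_def]
  rw [this, Basis.repr_sum_self]

theorem exists_el (x : K3) : ∃ a b c, x = el a b c :=
  ⟨bs.repr x 0, bs.repr x 1, bs.repr x 2, by
    conv_lhs => rw [← bs.sum_repr x]
    simp [Fin.sum_univ_three, bs_coe, el, Algebra.smul_def]⟩

theorem bs0 : bs 0 = el 1 0 0 := by simp [bs_coe, el]
theorem bs1 : bs 1 = el 0 1 0 := by simp [bs_coe, el]
theorem bs2 : bs 2 = el 0 0 1 := by simp [bs_coe, el]

theorem lmm (a b c : ℚ) : Algebra.leftMulMatrix bs (el a b c) =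
    !![a, 3 * c, 3 * b + 3 * c; b, a + 3 * c, 3 * b + 6 * c; c, b + c, a + b + 4 * c] := by
  ext i j
  rw [Algebra.leftMulMatrix_eq_repr_mul]
  fin_cases j
  · simp only [Fin.zero_eta, bs0, el_mul, repr_el]; fin_cases i <;> simp
  · simp only [Fin.mk_one, bs1, el_mul, repr_el]; fin_cases i <;> simp
  · simp only [Fin.reduceFinMk, bs2, el_mul, repr_el]; fin_cases i <;> simp <;> ring

theorem norm_el (a b c : ℚ) : Algebra.norm ℚ (el a b c) = a ^ 3 + a ^ 2 * b + 7 * a ^ 2 * c -
    3 * a * b ^ 2 - 12 * a * b * c + 3 * a * c ^ 2 + 3 * b ^ 3 + 3 * b ^ 2 * c - 9 * b * c ^ 2 +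
    9 * c ^ 3 := by
  rw [Algebra.norm_eq_matrix_det bs, lmm, Matrix.det_fin_three]
  simp; ring

theorem trace_el (a b c : ℚ) : Algebra.trace ℚ K3 (el a b c) = 3 * a + b + 7 * c := by
  rw [Algebra.trace_eq_matrix_trace bs, lmm, Matrix.trace_fin_three]
  simp; ring

theorem discr_bs : Algebra.discr ℚ bs = -300 := by
  rw [Algebra.discr_def, Matrix.det_fin_three]
  simp only [Algebra.traceMatrix_apply, Algebra.traceForm_apply, bs0, bs1, bs2, el_mul, trace_el]
  norm_num

theorem φ_int : IsIntegral ℤ φ := by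
  refine ⟨X ^ 3 - X ^ 2 - 3 * X - 3, by monicity!, ?_⟩
  simpa [← aeval_def, map_ofNat] using hφ

/-- the generator as an integer -/
noncomputable def w : 𝓞 K3 := ⟨φ, φ_int⟩

theorem coe_w : algebraMap (𝓞 K3) K3 w = φ := rfl

theorem hw : w ^ 3 - w ^ 2 - 3 * w - 3 = 0 := by
  apply RingOfIntegers.coe_injective
  simpa [map_ofNat, coe_w] using hφ

theorem discr_K3 : ∃ D : ℤ, D ≠ 0 ∧ D ^ 2 * discr K3 = -300 := by
  classical
  let e := (integralBasis K3).indexEquiv bs
  let ω := (integralBasis K3).reindex e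
  let v : Fin 3 → 𝓞 K3 := ![1, w, w ^ 2]
  have hv : ∀ j, bs j = algebraMap (𝓞 K3) K3 (v j) := by
    intro j; fin_cases j <;> simp [bs_coe, v, coe_w]
  let P : Matrix (Fin 3) (Fin 3) ℤ := fun i j => (RingOfIntegers.basis K3).repr (v j) (e.symm i)
  have hP : ω.toMatrix bs = P.map (Int.castRingHom ℚ) := by
    ext i j
    rw [Basis.toMatrix_apply, hv, Basis.repr_reindex_apply, integralBasis_repr_apply]
    rfl
  have h1 : Algebra.discr ℚ bs = (ω.toMatrix bs).det ^ 2 * Algebra.discr ℚ ω := by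
    rw [← Algebra.discr_of_matrix_vecMul, Basis.toMatrix_map_vecMul]
  have h2 : Algebra.discr ℚ ω = discr K3 := by
    rw [coe_discr, Basis.coe_reindex, Algebra.discr_reindex]
  rw [h2, discr_bs, hP, ← RingHom.mapMatrix_apply, ← RingHom.map_det] at h1
  have h3 : P.det ^ 2 * discr K3 = -300 := by
    generalize P.det = D at h1
    simp only [eq_intCast] at h1
    exact_mod_cast h1.symm
  refine ⟨P.det, fun k => ?_, h3⟩
  rw [k] at h3; norm_num at h3

theorem discr_bd : -300 ≤ discr K3 ∧ discr K3 < 0 := by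
  obtain ⟨D, h0, h⟩ := discr_K3
  have h1 : 1 ≤ D ^ 2 := by have := sq_pos_of_ne_zero h0; omega
  have h2 : discr K3 < 0 := by by_contra k; nlinarith
  exact ⟨by nlinarith, h2⟩

theorem nrC : nrComplexPlaces K3 = 1 ∧ nrRealPlaces K3 = 1 := by
  have h1 := sign_discr K3
  have h2 := card_add_two_mul_card_eq_rank K3
  rw [rk3] at h2
  rw [Int.sign_eq_neg_one_of_neg discr_bd.2] at h1
  have : nrComplexPlaces K3 ≠ 0 := fun k => by rw [k] at h1; norm_num at h1
  omega

/-- integers in coordinates -/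
noncomputable def io (a b c : ℤ) : 𝓞 K3 := a + b * w + c * w ^ 2

theorem coe_io (a b c : ℤ) : algebraMap (𝓞 K3) K3 (io a b c) = el a b c := by
  simp [io, el, coe_w]

theorem prime_io {a b c : ℤ} {p : ℕ} (hp : p.Prime) (h : Algebra.norm ℚ (el a b c) = p) :
    Prime (io a b c) := by
  have h1 : Algebra.norm ℤ (io a b c) = p := by
    have := Algebra.coe_norm_int (io a b c)
    rw [RingOfIntegers.coe_eq_algebraMap, coe_io, h] at this
    exact_mod_cast this
  refine Ideal.prime_of_irreducible_absNorm_span (fun k => ?_) ?_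
  · rw [k, Algebra.norm_zero] at h1
    exact hp.ne_zero (by exact_mod_cast h1.symm)
  · rw [Ideal.absNorm_span_singleton, h1]; exact hp

theorem pr2 : Prime (io 1 1 0) := prime_io Nat.prime_two (by rw [norm_el]; norm_num)
theorem pr3 : Prime (io 0 1 0) := prime_io Nat.prime_three (by rw [norm_el]; norm_num)
theorem pr3' : Prime (io 2 2 (-1)) := prime_io Nat.prime_three (by rw [norm_el]; norm_num)
theorem pr5 : Prime (io (-2) 1 0) := prime_io Nat.prime_five (by rw [norm_el]; norm_num)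

theorem e2 : (2 : 𝓞 K3) = io 1 1 0 ^ 3 * io (-1) 3 (-1) := by
  simp only [io]; push_cast; linear_combination (w ^ 2 + w - 1) * hw
theorem e3 : (3 : 𝓞 K3) = io 0 1 0 ^ 2 * io 2 2 (-1) := by
  simp only [io]; push_cast; linear_combination (w - 1) * hw
theorem e5 : (5 : 𝓞 K3) = io (-2) 1 0 ^ 3 * io 2 3 2 := by
  simp only [io]; push_cast; linear_combination (-2 * w ^ 2 + 7 * w - 7) * hw
theorem e1 : io 2 3 2 * io (-1) 3 (-1) = 1 := by
  simp only [io]; push_cast; linear_combination (-2 * w + 1) * hw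

theorem span_eq {P : Ideal (𝓞 K3)} (hP : P.IsPrime) {x : 𝓞 K3} (hx : Prime x) (h : x ∈ P) :
    P.IsPrincipal := by
  have h1 : (Ideal.span {x}).IsMaximal :=
    ((Ideal.span_singleton_prime hx.ne_zero).2 hx).isMaximal (by simpa using hx.ne_zero)
  exact ⟨⟨x, (h1.eq_of_le hP.ne_top ((Ideal.span_singleton_le_iff_mem P).2 h)).symm⟩⟩

instance pid3 : IsPrincipalIdealRing (𝓞 K3) := by
  apply RingOfIntegers.isPrincipalIdealRing_of_isPrincipal_of_pow_le_of_mem_primesOver_of_mem_Icc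
  intro p hp hpp P hP _
  have h5 : p < 5 := by
    rw [Finset.mem_Icc] at hp
    refine lt_of_le_of_lt hp.2 ?_
    rw [Nat.floor_lt (by positivity), rk3, nrC.1]
    have h1 : √|((discr K3 : ℤ) : ℝ)| ≤ 17.33 := by
      rw [Real.sqrt_le_iff]
      refine ⟨by norm_num, ?_⟩
      have a1 : ((-300 : ℤ) : ℝ) ≤ discr K3 := by exact_mod_cast discr_bd.1
      have a2 : ((discr K3 : ℤ) : ℝ) < (0 : ℤ) := by exact_mod_cast discr_bd.2
      rw [abs_le]; push_cast at a1 a2; constructor <;> nlinarith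
    have hpi := Real.pi_gt_d2
    have h2 : 4 / Real.pi ≤ 4 / 3.14 := by gcongr
    have h3 : (0 : ℝ) ≤ √|((discr K3 : ℤ) : ℝ)| := Real.sqrt_nonneg _
    calc _ ≤ (4 / 3.14 : ℝ) ^ 1 * (((3 : ℕ).factorial : ℝ) / ((3 : ℕ) : ℝ) ^ 3 * 17.33) := by
          gcongr
      _ < _ := by norm_num [Nat.factorial]
  obtain ⟨h1, h2⟩ := hP
  have hm : ((p : ℤ) : 𝓞 K3) ∈ P := by
    have : (p : ℤ) ∈ Ideal.span {(p : ℤ)} := Ideal.mem_span_singleton_self _
    rw [h2.over] at this
    exact this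
  have hu : io (-1) 3 (-1) ∉ P := fun k =>
    h1.ne_top ((Ideal.eq_top_iff_one P).2 (e1 ▸ P.mul_mem_left _ k))
  have := hpp.two_le
  interval_cases p
  · have : (2 : 𝓞 K3) ∈ P := by exact_mod_cast hm
    rw [e2] at this
    exact span_eq h1 pr2 (h1.mem_of_pow_mem 3 ((h1.mem_or_mem this).resolve_right hu))
  · have : (3 : 𝓞 K3) ∈ P := by exact_mod_cast hm
    rw [e3] at this
    rcases h1.mem_or_mem this with k | k
    · exact span_eq h1 pr3 (h1.mem_of_pow_mem 2 k)
    · exact span_eq h1 pr3' k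
  · exact absurd hpp (by decide)

end Vale.Agent.Q017D
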